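import Crest.Agent.R73.Defs

/-! Row 73, sub-task APPROX: completely positive approximation in the Cuntz algebra. -/

set_option autoImplicit false
open Crest.AnalysisR.CStarEmbedding

noncomputable section

namespace Crest.Agent.R73
namespace Ap

variable {O : Type} [CStarAlgebra O]

/-- The isometry of a word. -/
def wd (s : Bool → O) (l : List Bool) : O := (l.map s).prod

@[simp] lemma wd_nil (s : Bool → O) : wd s [] = 1 := by simp [wd]

lemma wd_cons (s : Bool → O) (c : Bool) (l : List Bool) : wd s (c :: l) = s c * wd s l := by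
  simp [wd]

lemma wd_snoc (s : Bool → O) (c : Bool) (l : List Bool) : wd s (l ++ [c]) = wd s l * s c := by
  simp [wd]

lemma orth_wd {s : Bool → O} (hs : Orth s) : ∀ α β : List Bool, α.length = β.length →
    star (wd s α) * wd s β = if α = β then 1 else 0
  | [], [], _ => by simp
  | [], _ :: _, h => by simp at h
  | _ :: _, [], h => by simp at h
  | a :: α, b :: β, h => by
    have h' : α.length = β.length := by simpa using h
    have ih := orth_wd hs α β h'
    rw [wd_cons, wd_cons, star_mul]
    have : star (wd s α) * star (s a) * (s b * wd s β)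
        = star (wd s α) * (star (s a) * s b) * wd s β := by simp only [mul_assoc]
    rw [this, hs a b]
    by_cases hab : a = b
    · subst hab
      simp [ih]
    · simp [hab]

/-- Span of the monomials with word lengths `n, n'`. -/
def Fm (s : Bool → O) (n n' : ℕ) : Submodule ℂ O :=
  Submodule.span ℂ {x | ∃ α β : List Bool, α.length = n ∧ β.length = n' ∧
    x = wd s α * star (wd s β)}

lemma mon_mem (s : Bool → O) (α β : List Bool) :
    wd s α * star (wd s β) ∈ Fm s α.length β.length :=
  Submodule.subset_span ⟨α, β, rfl, rfl, rfl⟩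

lemma Fm_succ {s : Bool → O} (hs : Cuntz s) (n n' : ℕ) : Fm s n n' ≤ Fm s (n + 1) (n' + 1) := by
  refine Submodule.span_le.2 ?_
  rintro x ⟨α, β, hα, hβ, rfl⟩
  have h1 : wd s α * star (wd s β) = ∑ c, wd s (α ++ [c]) * star (wd s (β ++ [c])) := by
    have : ∀ c, wd s (α ++ [c]) * star (wd s (β ++ [c]))
        = wd s α * (s c * star (s c)) * star (wd s β) := by
      intro c; rw [wd_snoc, wd_snoc, star_mul]; simp only [mul_assoc]
    simp only [this]
    rw [← Finset.sum_mul, ← Finset.mul_sum, hs.2, mul_one]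
  rw [h1]
  refine Submodule.sum_mem _ fun c _ => Submodule.subset_span ⟨α ++ [c], β ++ [c], ?_, ?_, rfl⟩
  · simp [hα]
  · simp [hβ]

lemma Fm_add {s : Bool → O} (hs : Cuntz s) (n n' r : ℕ) : Fm s n n' ≤ Fm s (n + r) (n' + r) := by
  induction r with
  | zero => exact le_rfl
  | succ r ih => exact ih.trans (Fm_succ hs _ _)

/-- Span of all monomials. -/
def Mon (s : Bool → O) : Submodule ℂ O :=
  Submodule.span ℂ {x | ∃ α β : List Bool, x = wd s α * star (wd s β)}

lemma mul_mem_Mon {s : Bool → O} (hs : Orth s) (c : Bool) (y : O) (hy : y ∈ Mon s) :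
    s c * y ∈ Mon s ∧ star (s c) * y ∈ Mon s := by
  induction hy using Submodule.span_induction with
  | mem x hx =>
    obtain ⟨α, β, rfl⟩ := hx
    refine ⟨Submodule.subset_span ⟨c :: α, β, by rw [wd_cons, mul_assoc]⟩, ?_⟩
    cases α with
    | nil =>
      exact Submodule.subset_span ⟨[], β ++ [c], by simp [wd_snoc, star_mul]⟩
    | cons a α =>
      rw [wd_cons, ← mul_assoc, ← mul_assoc, hs c a]
      by_cases h : c = a
      · simp only [h, if_true, one_mul]
        exact Submodule.subset_span ⟨α, β, rfl⟩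
      · simp [h]
  | zero => simp
  | add x y _ _ hx hy =>
    rw [mul_add, mul_add]
    exact ⟨Submodule.add_mem _ hx.1 hy.1, Submodule.add_mem _ hx.2 hy.2⟩
  | smul r x _ hx =>
    rw [mul_smul_comm, mul_smul_comm]
    exact ⟨Submodule.smul_mem _ _ hx.1, Submodule.smul_mem _ _ hx.2⟩

lemma adjoin_le_Mon {s : Bool → O} (hs : Orth s) (x : O)
    (hx : x ∈ StarAlgebra.adjoin ℂ ({s true, s false} : Set O)) : x ∈ Mon s := by
  have key : ∀ y ∈ Mon s, x * y ∈ Mon s ∧ star x * y ∈ Mon s := by
    induction hx using StarAlgebra.adjoin_induction with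
    | mem x hx =>
      intro y hy
      rcases hx with rfl | rfl
      · exact mul_mem_Mon hs _ y hy
      · exact mul_mem_Mon hs _ y hy
    | algebraMap r =>
      intro y hy
      rw [← algebraMap_star_comm, ← Algebra.smul_def, ← Algebra.smul_def]
      exact ⟨Submodule.smul_mem _ _ hy, Submodule.smul_mem _ _ hy⟩
    | add x x' _ _ h h' =>
      intro y hy
      rw [star_add, add_mul, add_mul]
      exact ⟨Submodule.add_mem _ (h y hy).1 (h' y hy).1, Submodule.add_mem _ (h y hy).2 (h' y hy).2⟩
    | mul x x' _ _ h h' =>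
      intro y hy
      rw [star_mul, mul_assoc, mul_assoc]
      exact ⟨(h _ (h' y hy).1).1, (h' _ (h y hy).2).2⟩
    | star x _ h =>
      intro y hy
      rw [star_star]
      exact ⟨(h y hy).2, (h y hy).1⟩
  have h1 : (1 : O) ∈ Mon s := Submodule.subset_span ⟨[], [], by simp⟩
  simpa using (key 1 h1).1

lemma cuntz_fin {s : Bool → O} (hs : Cuntz s) (n : ℕ) : ∃ e : Fin (n + 1) → O, Cuntz e := by
  induction n with
  | zero => exact ⟨fun _ => 1, fun x y => by simp [show x = y from Fin.ext (by omega)], by simp⟩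
  | succ n ih =>
    obtain ⟨e, he⟩ := ih
    refine ⟨Fin.cons (s true) fun i => s false * e i, fun x y => ?_, ?_⟩
    · refine Fin.cases ?_ (fun x => ?_) x <;> refine Fin.cases ?_ (fun y => ?_) y
      · simpa using hs.1 true true
      · have := hs.1 true false
        simp only [Fin.cons_zero, Fin.cons_succ, ← mul_assoc, this]
        simp [(Fin.succ_ne_zero y).symm]
      · have := hs.1 false true
        simp only [Fin.cons_zero, Fin.cons_succ, star_mul, mul_assoc, this]
        simp [Fin.succ_ne_zero x]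
      · have h1 := hs.1 false false
        simp only [if_true] at h1
        simp only [Fin.cons_succ, star_mul, Fin.succ_inj]
        rw [mul_assoc, ← mul_assoc (star (s false)), h1, one_mul, he.1]
    · rw [Fin.sum_univ_succ]
      simp only [Fin.cons_zero, Fin.cons_succ, star_mul]
      have : ∀ i, s false * e i * (star (e i) * star (s false))
          = s false * (e i * star (e i)) * star (s false) := by
        intro i; simp only [mul_assoc]
      simp only [this]
      rw [← Finset.sum_mul, ← Finset.mul_sum, he.2, mul_one]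
      simpa using hs.2

lemma cuntz_zmod {s : Bool → O} (hs : Cuntz s) (L : ℕ) [NeZero L] :
    ∃ e : ZMod L → O, Cuntz e := by
  obtain ⟨n, rfl⟩ := Nat.exists_eq_succ_of_ne_zero (NeZero.ne L)
  obtain ⟨e, he⟩ := cuntz_fin hs n
  let φ : ZMod (n + 1) ≃ Fin (n + 1) := (ZMod.finEquiv (n + 1)).toEquiv.symm
  refine ⟨fun x => e (φ x), fun x y => ?_, ?_⟩
  · rw [he.1]; simp only [EmbeddingLike.apply_eq_iff_eq]
  · rw [← he.2]; exact Equiv.sum_comp φ fun x => e x * star (e x)

section Shift
variable {L : ℕ} [NeZero L]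

/-- The element `a` placed on the `k`-th cyclic diagonal. -/
def sh (e : ZMod L → O) (k : ZMod L) (a : O) : O := ∑ l, e (l + k) * a * star (e l)

lemma sh_mul_e {e : ZMod L → O} (he : Orth e) (k : ZMod L) (a : O) (j : ZMod L) :
    sh e k a * e j = e (j + k) * a := by
  unfold sh
  rw [Finset.sum_mul, Finset.sum_eq_single j]
  · rw [mul_assoc, he j j]; simp
  · intro l _ hl
    rw [mul_assoc, he l j]; simp [hl]
  · simp

lemma sh_mul {e : ZMod L → O} (he : Orth e) (k k' : ZMod L) (a a' : O) :
    sh e k a * sh e k' a' = sh e (k + k') (a * a') := by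
  conv_lhs => rw [show sh e k' a' = ∑ l, e (l + k') * a' * star (e l) from rfl]
  rw [Finset.mul_sum]
  refine Finset.sum_congr rfl fun l _ => ?_
  rw [← mul_assoc, ← mul_assoc, sh_mul_e he, show l + k' + k = l + (k + k') by ring]
  simp only [mul_assoc]

lemma sh_star (e : ZMod L → O) (k : ZMod L) (a : O) :
    star (sh e k a) = sh e (-k) (star a) := by
  unfold sh
  rw [star_sum, ← Equiv.sum_comp (Equiv.addRight k) fun l => e (l + -k) * star a * star (e l)]
  refine Finset.sum_congr rfl fun l _ => ?_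
  simp [star_mul, mul_assoc]

lemma sh_add (e : ZMod L → O) (k : ZMod L) (a a' : O) :
    sh e k (a + a') = sh e k a + sh e k a' := by
  simp [sh, mul_add, add_mul, Finset.sum_add_distrib]

lemma sh_one {e : ZMod L → O} (he : Cuntz e) : sh e 0 1 = 1 := by
  simpa [sh] using he.2

lemma sh_entry {e : ZMod L → O} (he : Orth e) (k : ZMod L) (a : O) (i j : ZMod L) :
    star (e i) * sh e k a * e j = if i = j + k then a else 0 := by
  rw [mul_assoc, sh_mul_e he, ← mul_assoc, he]
  split_ifs <;> simp

lemma b_wd {s : Bool → O} {e : ZMod L → O} (he : Cuntz e) (b : O →⋆ₐ[ℂ] O)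
    (hb : ∀ c, b (s c) = sh e 1 (s c)) (α : List Bool) :
    b (wd s α) = sh e (α.length : ZMod L) (wd s α) := by
  induction α with
  | nil => simp [sh_one he]
  | cons c α ih =>
    rw [wd_cons, map_mul, ih, hb, sh_mul he.1]
    simp [add_comm]

lemma b_mon {s : Bool → O} {e : ZMod L → O} (he : Cuntz e) (b : O →⋆ₐ[ℂ] O)
    (hb : ∀ c, b (s c) = sh e 1 (s c)) (α β : List Bool) :
    b (wd s α * star (wd s β))
      = sh e ((α.length : ZMod L) + -(β.length : ZMod L)) (wd s α * star (wd s β)) := by
  rw [map_mul, map_star, b_wd he b hb, b_wd he b hb, sh_star, sh_mul he.1]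

lemma entry_mon {s : Bool → O} {e : ZMod L → O} (he : Cuntz e) (b : O →⋆ₐ[ℂ] O)
    (hb : ∀ c, b (s c) = sh e 1 (s c)) (α β : List Bool) (i j : ℕ)
    (hi : i + β.length < L) (hj : j + α.length < L) :
    star (e i) * b (wd s α * star (wd s β)) * e j
      = if i + β.length = j + α.length then wd s α * star (wd s β) else 0 := by
  rw [b_mon he b hb, sh_entry he.1]
  have : ((i : ZMod L) = j + ((α.length : ZMod L) + -(β.length : ZMod L)))
      ↔ i + β.length = j + α.length := by
    have h2 := ZMod.natCast_eq_natCast_iff' (i + β.length) (j + α.length) L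
    rw [Nat.mod_eq_of_lt hi, Nat.mod_eq_of_lt hj] at h2
    rw [← h2]
    push_cast
    constructor
    · intro h; rw [h]; ring
    · intro h; linear_combination h
  simp only [this]

end Shift

/-- Index set of the matrix units. -/
abbrev Ix (N M : ℕ) : Type := {p : ℕ × List Bool // p.1 < N ∧ p.2.length = M + p.1}

instance finIx (N M : ℕ) : Finite (Ix N M) :=
  (Set.Finite.subset ((Set.finite_lt_nat N).prod (List.finite_length_lt Bool (M + N)))
    (t := {p : ℕ × List Bool | p.1 < N ∧ p.2.length = M + p.1})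
    (fun p hp => ⟨hp.1, by
      have h1 := hp.1
      have h2 := hp.2
      show p.2.length < M + N
      omega⟩)).to_subtype

/-- Span of the matrix units of a family. -/
def Gs {I : Type} (t : I → O) : Submodule ℂ O :=
  Submodule.span ℂ {x | ∃ p q, x = t p * star (t q)}

lemma exists_mu {I : Type} [Fintype I] [DecidableEq I] (t : I → O) (Y : O) (hY : Y ∈ Gs t) :
    ∃ y : Matrix I I ℂ, mu t t y = Y := by
  induction hY using Submodule.span_induction with
  | mem x hx =>
    obtain ⟨p, q, rfl⟩ := hx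
    refine ⟨Matrix.single p q 1, ?_⟩
    unfold mu
    rw [Finset.sum_eq_single p, Finset.sum_eq_single q]
    · simp
    · intro b _ hb; simp [Matrix.single, hb.symm]
    · simp
    · intro a _ ha; simp [Matrix.single, ha.symm]
    · simp
  | zero => exact ⟨0, by simp [mu]⟩
  | add x y _ _ hx hy =>
    obtain ⟨a, rfl⟩ := hx
    obtain ⟨b, rfl⟩ := hy
    exact ⟨a + b, by simp [mu, add_smul, Finset.sum_add_distrib]⟩
  | smul r x _ hx =>
    obtain ⟨a, rfl⟩ := hx
    exact ⟨r • a, by simp [mu, Finset.smul_sum, mul_smul]⟩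

section Comp
variable {L : ℕ} [NeZero L]

/-- The orthogonal isometries `e_i s_μ`. -/
def tt (s : Bool → O) (e : ZMod L → O) (N M : ℕ) (p : Ix N M) : O :=
  e (p.1.1 : ZMod L) * wd s p.1.2

omit [NeZero L] in
lemma e_orth {e : ZMod L → O} (he : Orth e) {i j : ℕ} (hi : i < L) (hj : j < L) :
    star (e i) * e j = if i = j then 1 else 0 := by
  rw [he]
  have h2 := ZMod.natCast_eq_natCast_iff' i j L
  rw [Nat.mod_eq_of_lt hi, Nat.mod_eq_of_lt hj] at h2
  simp only [h2]

omit [NeZero L] in
lemma orth_tt {s : Bool → O} (hs : Orth s) {e : ZMod L → O} (he : Orth e) {N M : ℕ}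
    (hN : N ≤ L) [DecidableEq (Ix N M)] : Orth (tt s e N M) := by
  rintro ⟨⟨i, α⟩, hi, hα⟩ ⟨⟨j, β⟩, hj, hβ⟩
  simp only at hi hα hj hβ
  simp only [tt, star_mul, Subtype.mk.injEq, Prod.mk.injEq]
  rw [mul_assoc, ← mul_assoc (star (e i)), e_orth he (by omega) (by omega)]
  by_cases h : i = j
  · subst h
    simp only [if_true, one_mul, true_and]
    rw [orth_wd hs α β (by omega)]
  · simp [h]

omit [NeZero L] in
lemma conj_mem (s : Bool → O) (e : ZMod L → O) {N M i j : ℕ} (hi : i < N) (hj : j < N) (a : O)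
    (ha : a ∈ Fm s (M + i) (M + j)) : e i * a * star (e j) ∈ Gs (tt s e N M) := by
  induction ha using Submodule.span_induction with
  | mem x hx =>
    obtain ⟨α, β, hα, hβ, rfl⟩ := hx
    refine Submodule.subset_span ⟨⟨(i, α), hi, hα⟩, ⟨(j, β), hj, hβ⟩, ?_⟩
    simp only [tt, star_mul, mul_assoc]
  | zero => simp
  | add x y _ _ hx hy =>
    rw [mul_add, add_mul]; exact Submodule.add_mem _ hx hy
  | smul r x _ hx =>
    rw [mul_smul_comm, smul_mul_assoc]; exact Submodule.smul_mem _ _ hx

/-- The cut-off projection. -/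
def Pp (e : ZMod L → O) (N : ℕ) : O := ∑ i ∈ Finset.range N, e i * star (e i)

/-- The Fejér isometry. -/
def vv (e : ZMod L → O) (N : ℕ) : O := (((√N)⁻¹ : ℝ) : ℂ) • ∑ i ∈ Finset.range N, e i

omit [NeZero L] in
lemma Pp_mul_e {e : ZMod L → O} (he : Orth e) {N : ℕ} (hN : N ≤ L) {j : ℕ} (hj : j < N) :
    Pp e N * e j = e j := by
  unfold Pp
  rw [Finset.sum_mul, Finset.sum_eq_single j]
  · rw [mul_assoc, e_orth he (by omega) (by omega)]; simp
  · intro i hi hij
    have := Finset.mem_range.1 hi
    rw [mul_assoc, e_orth he (by omega) (by omega)]; simp [hij]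
  · intro h; exact absurd (Finset.mem_range.2 hj) h

omit [NeZero L] in
lemma Pp_star (e : ZMod L → O) (N : ℕ) : star (Pp e N) = Pp e N := by
  simp [Pp, star_sum, star_mul]

omit [NeZero L] in
lemma Pp_norm {e : ZMod L → O} (he : Orth e) {N : ℕ} (hN : N ≤ L) : ‖Pp e N‖ ≤ 1 := by
  refine IsStarProjection.norm_le _ ⟨?_, Pp_star e N⟩
  show Pp e N * Pp e N = Pp e N
  conv_lhs => rw [show Pp e N * Pp e N = Pp e N * ∑ i ∈ Finset.range N, e i * star (e i) from rfl]
  rw [Finset.mul_sum]
  refine Finset.sum_congr rfl fun j hj => ?_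
  rw [← mul_assoc, Pp_mul_e he hN (Finset.mem_range.1 hj)]

omit [NeZero L] in
lemma Pp_mul_vv {e : ZMod L → O} (he : Orth e) {N : ℕ} (hN : N ≤ L) :
    Pp e N * vv e N = vv e N := by
  unfold vv
  rw [mul_smul_comm, Finset.mul_sum]
  congr 1
  exact Finset.sum_congr rfl fun j hj => Pp_mul_e he hN (Finset.mem_range.1 hj)

omit [NeZero L] in
lemma vv_conj (e : ZMod L → O) (N : ℕ) (y : O) :
    star (vv e N) * y * vv e N
      = ((N : ℂ))⁻¹ • ∑ i ∈ Finset.range N, ∑ j ∈ Finset.range N, star (e i) * y * e j := by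
  unfold vv
  rw [star_smul, smul_mul_assoc, smul_mul_assoc, mul_smul_comm, smul_smul, star_sum,
    Finset.sum_mul, Finset.sum_mul]
  simp only [Finset.mul_sum]
  congr 1
  rw [Complex.star_def, Complex.conj_ofReal, ← Complex.ofReal_mul, ← mul_inv,
    Real.mul_self_sqrt (Nat.cast_nonneg N)]
  simp

omit [NeZero L] in
lemma vv_norm {e : ZMod L → O} (he : Orth e) {N : ℕ} (hN0 : 0 < N) (hN : N ≤ L) :
    ‖vv e N‖ ≤ 1 := by
  have h1 : star (vv e N) * vv e N = 1 := by
    have := vv_conj e N 1
    rw [mul_one] at this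
    rw [this]
    have h2 : ∀ i ∈ Finset.range N, ∑ j ∈ Finset.range N, star (e i) * 1 * e j = 1 := by
      intro i hi
      have hi' := Finset.mem_range.1 hi
      rw [Finset.sum_eq_single i]
      · rw [mul_one, e_orth he (by omega) (by omega)]; simp
      · intro j hj hij
        have := Finset.mem_range.1 hj
        rw [mul_one, e_orth he (by omega) (by omega)]; simp [hij.symm]
      · intro h; exact absurd hi h
    rw [Finset.sum_congr rfl h2, Finset.sum_const, Finset.card_range, ← Nat.cast_smul_eq_nsmul ℂ,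
      smul_smul, inv_mul_cancel₀ (by exact_mod_cast hN0.ne'), one_smul]
  have h2 : ‖vv e N‖ * ‖vv e N‖ ≤ 1 := by
    rw [← CStarRing.norm_star_mul_self, h1]
    exact IsStarProjection.norm_le _ (IsStarProjection.one O)
  nlinarith [norm_nonneg (vv e N)]

omit [NeZero L] in
lemma Pp_conj (e : ZMod L → O) (N : ℕ) (y : O) :
    Pp e N * y * Pp e N = ∑ i ∈ Finset.range N, ∑ j ∈ Finset.range N,
      e i * (star (e i) * y * e j) * star (e j) := by
  unfold Pp
  rw [Finset.sum_mul, Finset.sum_mul]
  simp only [Finset.mul_sum, mul_assoc]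

end Comp

lemma count_bound (N n n' : ℕ) (a : O) :
    ‖∑ i ∈ Finset.range N, (a - ∑ j ∈ Finset.range N, if i + n' = j + n then a else 0)‖
      ≤ (n + n') * ‖a‖ := by
  have h1 : ∀ i ∈ Finset.range N,
      ‖a - ∑ j ∈ Finset.range N, if i + n' = j + n then a else 0‖
        ≤ ((if i < n then 1 else 0) + (if N ≤ i + n' then 1 else 0)) * ‖a‖ := by
    intro i _
    by_cases h : n ≤ i + n' ∧ i + n' - n < N
    · rw [Finset.sum_eq_single (i + n' - n)]
      · rw [if_pos (by omega), sub_self, norm_zero]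
        positivity
      · intro j _ hj
        rw [if_neg (by omega)]
      · intro h'; exact absurd (Finset.mem_range.2 h.2) h'
    · rw [Finset.sum_eq_zero, sub_zero]
      · refine le_mul_of_one_le_left (norm_nonneg _) ?_
        split_ifs <;> first | (norm_num; done) | omega
      · intro j hj
        have := Finset.mem_range.1 hj
        rw [if_neg (by omega)]
  refine (norm_sum_le _ _).trans ((Finset.sum_le_sum h1).trans ?_)
  rw [← Finset.sum_mul, Finset.sum_add_distrib]
  refine mul_le_mul_of_nonneg_right (add_le_add ?_ ?_) (norm_nonneg _)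
  · rw [Finset.sum_boole]
    have : ((Finset.range N).filter fun i => i < n).card ≤ (Finset.range n).card :=
      Finset.card_le_card fun i hi => Finset.mem_range.2 (Finset.mem_filter.1 hi).2
    rw [Finset.card_range] at this
    exact_mod_cast this
  · rw [Finset.sum_boole]
    have : ((Finset.range N).filter fun i => N ≤ i + n').card ≤ (Finset.Ico (N - n') N).card :=
      Finset.card_le_card fun i hi => by
        have h1 := Finset.mem_range.1 (Finset.mem_filter.1 hi).1
        have h2 := (Finset.mem_filter.1 hi).2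
        exact Finset.mem_Ico.2 ⟨by omega, h1⟩
    rw [Nat.card_Ico] at this
    exact_mod_cast this.trans (by omega)

/-- Elements approximated by the construction. -/
def Good (s : Bool → O) (a : O) : Prop :=
  ∃ (m : ℕ) (C : ℝ), 0 ≤ C ∧ ∀ (M N L : ℕ) [NeZero L], m ≤ M → 0 < N → N + M ≤ L →
    ∀ e : ZMod L → O, Cuntz e → ∀ b : O →⋆ₐ[ℂ] O, (∀ c, b (s c) = sh e 1 (s c)) →
      Pp e N * b a * Pp e N ∈ Gs (tt s e N M) ∧
        ‖a - star (vv e N) * b a * vv e N‖ ≤ C / N

lemma good_mon {s : Bool → O} (hs : Cuntz s) (α β : List Bool) :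
    Good s (wd s α * star (wd s β)) := by
  refine ⟨α.length + β.length, (α.length + β.length) * ‖wd s α * star (wd s β)‖, by positivity,
    fun M N L _ hM hN hL e he b hb => ⟨?_, ?_⟩⟩
  · rw [Pp_conj]
    refine Submodule.sum_mem _ fun i hi => Submodule.sum_mem _ fun j hj => ?_
    have hi' := Finset.mem_range.1 hi
    have hj' := Finset.mem_range.1 hj
    rw [entry_mon he b hb α β i j (by omega) (by omega)]
    refine conj_mem s e hi' hj' _ ?_
    split_ifs with h
    · have := Fm_add hs _ _ (M + i - α.length) (mon_mem s α β)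
      rwa [show α.length + (M + i - α.length) = M + i by omega,
        show β.length + (M + i - α.length) = M + j by omega] at this
    · exact Submodule.zero_mem _
  · rw [vv_conj e N]
    have h1 : ∀ i ∈ Finset.range N, ∑ j ∈ Finset.range N,
        star (e i) * b (wd s α * star (wd s β)) * e j = ∑ j ∈ Finset.range N,
          if i + β.length = j + α.length then wd s α * star (wd s β) else 0 := by
      intro i hi
      refine Finset.sum_congr rfl fun j hj => ?_
      have hi' := Finset.mem_range.1 hi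
      have hj' := Finset.mem_range.1 hj
      exact entry_mon he b hb α β i j (by omega) (by omega)
    rw [Finset.sum_congr rfl h1]
    have h2 := count_bound N α.length β.length (wd s α * star (wd s β))
    set a := wd s α * star (wd s β)
    have hN' : (N : ℂ) ≠ 0 := by exact_mod_cast hN.ne'
    have h3 : a - (N : ℂ)⁻¹ • ∑ i ∈ Finset.range N, ∑ j ∈ Finset.range N,
        (if i + β.length = j + α.length then a else 0) = (N : ℂ)⁻¹ • ∑ i ∈ Finset.range N,
          (a - ∑ j ∈ Finset.range N, if i + β.length = j + α.length then a else 0) := by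
      rw [Finset.sum_sub_distrib, smul_sub, Finset.sum_const, Finset.card_range,
        ← Nat.cast_smul_eq_nsmul ℂ, smul_smul, inv_mul_cancel₀ hN', one_smul]
    rw [h3, norm_smul, norm_inv, Complex.norm_natCast, div_eq_inv_mul]
    exact mul_le_mul_of_nonneg_left h2 (by positivity)

lemma good_of_mem {s : Bool → O} (hs : Cuntz s) (a : O) (ha : a ∈ Mon s) : Good s a := by
  induction ha using Submodule.span_induction with
  | mem x hx =>
    obtain ⟨α, β, rfl⟩ := hx
    exact good_mon hs α β
  | zero => exact ⟨0, 0, le_rfl, fun M N L _ _ _ _ e _ b _ => by simp⟩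
  | add x y _ _ hx hy =>
    obtain ⟨m, C, hC, h⟩ := hx
    obtain ⟨m', C', hC', h'⟩ := hy
    refine ⟨m + m', C + C', by positivity, fun M N L _ hM hN hL e he b hb => ?_⟩
    obtain ⟨h1, h2⟩ := h M N L (by omega) hN hL e he b hb
    obtain ⟨h1', h2'⟩ := h' M N L (by omega) hN hL e he b hb
    rw [map_add, mul_add, add_mul, mul_add, add_mul, add_sub_add_comm, add_div]
    exact ⟨Submodule.add_mem _ h1 h1', (norm_add_le _ _).trans (add_le_add h2 h2')⟩
  | smul r x _ hx =>
    obtain ⟨m, C, hC, h⟩ := hx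
    refine ⟨m, ‖r‖ * C, by positivity, fun M N L _ hM hN hL e he b hb => ?_⟩
    obtain ⟨h1, h2⟩ := h M N L hM hN hL e he b hb
    rw [map_smul, mul_smul_comm, smul_mul_assoc, mul_smul_comm, smul_mul_assoc, ← smul_sub,
      norm_smul, mul_div_assoc]
    exact ⟨Submodule.smul_mem _ _ h1, mul_le_mul_of_nonneg_left h2 (norm_nonneg _)⟩

lemma cuntz_bool {s₁ s₂ : O} (h1 : star s₁ * s₁ = 1) (h2 : star s₂ * s₂ = 1)
    (h3 : s₁ * star s₁ + s₂ * star s₂ = 1) : Cuntz fun c : Bool => cond c s₁ s₂ := by
  have h12 : star s₁ * s₂ = 0 := by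
    have : star s₁ * (s₁ * star s₁ + s₂ * star s₂) * s₂ = star s₁ * s₂ + star s₁ * s₂ := by
      rw [mul_add, add_mul, ← mul_assoc, h1, one_mul, mul_assoc, mul_assoc, h2, mul_one]
    rw [h3, mul_one] at this
    exact left_eq_add.1 this
  have h21 : star s₂ * s₁ = 0 := by
    have := congrArg star h12
    simpa using this
  refine ⟨fun x y => ?_, by simpa using h3⟩
  cases x <;> cases y <;> simp [h1, h2, h12, h21]

lemma approx' {T : Type} [Fintype T] (s₁ s₂ : O) (hO : IsCuntzTwo O s₁ s₂) (x : T → O) (η : ℝ)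
    (hη : 0 < η) :
    ∃ (I : Type) (_ : Fintype I) (_ : DecidableEq I) (t : I → O) (v : O) (y : T → Matrix I I ℂ),
      Orth t ∧ ‖v‖ ≤ 1 ∧ (∀ s, ‖mu t t (y s)‖ ≤ ‖x s‖ + η) ∧
        ∀ s, ‖x s - star v * mu t t (y s) * v‖ ≤ η := by
  classical
  obtain ⟨h1, h2, h3, hd, hu⟩ := hO
  have hs := cuntz_bool h1 h2 h3
  set s : Bool → O := fun c : Bool => cond c s₁ s₂ with hsdef
  have hx : ∀ σ, ∃ x' ∈ Mon s, ‖x σ - x'‖ < η / 2 := by
    intro σ
    have hm : x σ ∈ (StarAlgebra.adjoin ℂ ({s₁, s₂} : Set O)).topologicalClosure := by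
      rw [hd]; trivial
    have hm' : x σ ∈ closure ((StarAlgebra.adjoin ℂ ({s₁, s₂} : Set O) : StarSubalgebra ℂ O) :
      Set O) := hm
    obtain ⟨x', hx', hd'⟩ := Metric.mem_closure_iff.1 hm' (η / 2) (by positivity)
    exact ⟨x', adjoin_le_Mon hs.1 x' hx', by rwa [← dist_eq_norm]⟩
  choose x' hx'm hx' using hx
  choose m C hC hg using fun σ => good_of_mem hs (x' σ) (hx'm σ)
  obtain ⟨N, hN⟩ := exists_nat_gt ((∑ σ, C σ) / (η / 2))
  have hC0 : 0 ≤ ∑ σ, C σ := Finset.sum_nonneg fun σ _ => hC σ
  have hN0' : (0 : ℝ) < N := lt_of_le_of_lt (by positivity) hN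
  have hN0 : 0 < N := by exact_mod_cast hN0'
  set M := ∑ σ, m σ
  have : NeZero (N + M) := ⟨by omega⟩
  obtain ⟨e, he⟩ := cuntz_zmod hs (N + M)
  obtain ⟨b, hb1, hb2⟩ := hu O (sh e 1 s₁) (sh e 1 s₂)
    (by rw [sh_star, sh_mul he.1, h1, neg_add_cancel, sh_one he])
    (by rw [sh_star, sh_mul he.1, h2, neg_add_cancel, sh_one he])
    (by rw [sh_star, sh_star, sh_mul he.1, sh_mul he.1, ← sh_add, h3, add_neg_cancel, sh_one he])
  have hb : ∀ c, b (s c) = sh e 1 (s c) := by
    intro c; cases c
    · exact hb2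
    · exact hb1
  have hG := fun σ => hg σ M N (N + M)
    (Finset.single_le_sum (f := m) (fun _ _ => Nat.zero_le _) (Finset.mem_univ σ)) hN0 le_rfl
    e he b hb
  let _ : Fintype (Ix N M) := Fintype.ofFinite _
  choose y hy using fun σ => exists_mu _ _ (hG σ).1
  have hNL : N ≤ N + M := by omega
  have hP := Pp_norm he.1 hNL
  refine ⟨Ix N M, inferInstance, inferInstance, tt s e N M, vv e N, y, orth_tt hs.1 he.1 hNL,
    vv_norm he.1 hN0 hNL, fun σ => ?_, fun σ => ?_⟩
  · rw [hy]
    have h4 : ‖b (x' σ)‖ ≤ ‖x' σ‖ := NonUnitalStarAlgHom.norm_apply_le b _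
    have h5 : ‖x' σ‖ ≤ ‖x σ‖ + η := by
      have := norm_sub_norm_le (x' σ) (x σ)
      rw [norm_sub_rev] at this
      linarith [hx' σ]
    calc _ ≤ ‖Pp e N‖ * ‖b (x' σ)‖ * ‖Pp e N‖ :=
          (norm_mul_le _ _).trans (mul_le_mul_of_nonneg_right (norm_mul_le _ _) (norm_nonneg _))
      _ ≤ 1 * ‖b (x' σ)‖ * 1 := by gcongr
      _ ≤ _ := by linarith
  · rw [hy]
    have h4 : star (vv e N) * (Pp e N * b (x' σ) * Pp e N) * vv e N
        = star (vv e N) * b (x' σ) * vv e N := by
      have h5 := Pp_mul_vv he.1 hNL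
      have h6 := congrArg star h5
      rw [star_mul, Pp_star] at h6
      calc _ = (star (vv e N) * Pp e N) * b (x' σ) * (Pp e N * vv e N) := by
            simp only [mul_assoc]
        _ = _ := by rw [h5, h6]
    rw [h4]
    have h5 : C σ / N ≤ η / 2 := by
      rw [div_lt_iff₀ (by positivity)] at hN
      rw [div_le_iff₀ hN0']
      have := Finset.single_le_sum (f := C) (fun σ _ => hC σ) (Finset.mem_univ σ)
      linarith
    have h6 := norm_add_le (x σ - x' σ) (x' σ - star (vv e N) * b (x' σ) * vv e N)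
    rw [sub_add_sub_cancel] at h6
    linarith [hx' σ, (hG σ).2]

end Ap

theorem approx : ApproxStmt := fun _ _ s₁ s₂ hO x η hη => Ap.approx' s₁ s₂ hO x η hη

end Crest.Agent.R73
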