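import Crest.Agent.R73.Defs

/-! Row 73, task COMM: averaging over the Kazhdan generators in the conjugation representation. -/

set_option autoImplicit false
open scoped Matrix Kronecker

namespace Crest.Agent.R73

theorem comm_of : GapStmt → CommStmt := fun hG D j b => by
  let vec : Matrix (D.X j) (D.X j) ℂ →ₗ[ℂ] EuclideanSpace ℂ (D.X j × D.X j) :=
    { toFun := fun b => WithLp.toLp 2 fun p => b p.1 p.2
      map_add' := fun _ _ => rfl
      map_smul' := fun _ _ => rfl }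
  have hv : ∀ b, hs b = ‖vec b‖ ^ 2 := fun b => by
    rw [EuclideanSpace.norm_sq_eq, Fintype.sum_prod_type]; rfl
  let κ : D.Γ →* (EuclideanSpace ℂ (D.X j × D.X j) →L[ℂ] EuclideanSpace ℂ (D.X j × D.X j)) :=
    { toFun := fun g => Matrix.toEuclideanCLM (n := D.X j × D.X j) (𝕜 := ℂ)
        (D.σ j g ⊗ₖ (D.σ j g).map (starRingEnd ℂ))
      map_one' := by simp
      map_mul' := fun g h => by rw [map_mul, Matrix.map_mul, Matrix.mul_kronecker_mul, map_mul] }
  have hs' : ∀ g, star (κ g) = κ g⁻¹ := fun g => by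
    simp only [κ, MonoidHom.coe_mk, OneHom.coe_mk, ← map_star, Matrix.star_eq_conjTranspose,
      Matrix.conjTranspose_kronecker, ← D.σ_star]
    rfl
  have hκ : ∀ g b, κ g (vec b) = vec (D.σ j g * b * (D.σ j g)ᴴ) := fun g b => by
    ext ⟨x, y⟩
    simp only [κ, vec, MonoidHom.coe_mk, OneHom.coe_mk, LinearMap.coe_mk, AddHom.coe_mk,
      Matrix.toEuclideanCLM_toLp, Matrix.mulVec, dotProduct, Fintype.sum_prod_type, Matrix.mul_apply,
      Finset.sum_mul]
    rw [Finset.sum_comm]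
    exact Finset.sum_congr rfl fun _ _ => Finset.sum_congr rfl fun _ _ => by simp; ring
  obtain ⟨p, h1, h2⟩ := hG _ D.a D.heis _ (κ.codRestrict (unitary _) fun g =>
    ⟨by rw [hs', ← map_mul, inv_mul_cancel, map_one], by rw [hs', ← map_mul, mul_inv_cancel, map_one]⟩)
  obtain ⟨c, hc⟩ : ∃ c, vec c = p (vec b) := ⟨Matrix.of fun x y => p (vec b) (x, y), rfl⟩
  obtain ⟨c1, c2⟩ := D.comm j c fun s => by
    have e : vec (D.σ j (D.a s) * c * (D.σ j (D.a s))ᴴ) = vec c := by
      rw [← hκ, hc]; exact DFunLike.congr_fun (h2 s) (vec b)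
    have e2 : D.σ j (D.a s) * c * (D.σ j (D.a s))ᴴ = c := by
      ext x y; exact congrArg (fun v : EuclideanSpace ℂ _ => v (x, y)) e
    conv_rhs => rw [← e2, D.σ_star, mul_assoc, ← map_mul, inv_mul_cancel, map_one, mul_one]
  refine ⟨c, c1, fun x => ?_, ?_⟩
  · have p1 : ‖p‖ ≤ 1 := IsStarProjection.norm_le p ⟨h1.idem, h1.sa⟩
    have e1 : ∑ y, ‖c y y‖ ^ 2 ≤ hs c := Finset.sum_le_sum fun y _ =>
      Finset.single_le_sum (f := fun z => ‖c y z‖ ^ 2) (fun _ _ => by positivity) (Finset.mem_univ y)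
    have e2 : hs c ≤ hs b := by
      rw [hv, hv, hc]
      exact pow_le_pow_left₀ (norm_nonneg _) ((p.le_of_opNorm_le p1 _).trans_eq (one_mul _)) 2
    rw [inv_pow, Real.sq_sqrt (by positivity), le_inv_mul_iff₀ (by positivity)]
    linarith [c2 x]
  · rw [hv, hv, ← mul_pow]
    refine pow_le_pow_left₀ (norm_nonneg _) (le_of_eq_of_le (congrArg norm ?_)
      (ContinuousLinearMap.le_of_opNorm_le _ h1.gap (vec b))) 2
    simp [avg, ← hκ, hc]

end Crest.Agent.R73
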