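import Crest.Agent.R73.DataA

/-! Row 73, sub-task DATA, part B: the monomial representations. -/

set_option autoImplicit false
open Polynomial Matrix

namespace Crest.Agent.R73
namespace DA

/-- the finite sets of characters -/
@[ext] structure Xs (j : ℕ) : Type where
  f : V →ₗ[F] F
  h1 : ∀ v, f ((X : R) ^ (j + 1) • v) = 0
  h2 : f (e 0 (X ^ j)) = 1

lemma smul_e (i : Fin 3) (f g : R) : f • e i g = e i (f * g) := by
  simp [e, ← Pi.single_smul]

lemma dual_ext {x y : V →ₗ[F] F} (h : ∀ (k : ℕ) i, x (e i (X ^ k)) = y (e i (X ^ k))) : x = y := by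
  refine LinearMap.pi_ext fun i f => ?_
  induction f using Polynomial.induction_on' with
  | add p q hp hq => rw [Pi.single_add, map_add, map_add, hp, hq]
  | monomial n c =>
    have : (Pi.single i (monomial n c) : V) = c • e i (X ^ n) := by
      rw [e, ← Pi.single_smul, ← C_mul_X_pow_eq_monomial, smul_eq_C_mul]
    rw [this, map_smul, map_smul, h]

lemma Xs.high {j : ℕ} (x : Xs j) {k : ℕ} (hk : j < k) (i : Fin 3) : x.1 (e i (X ^ k)) = 0 := by
  obtain ⟨l, rfl⟩ := Nat.exists_eq_add_of_lt hk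
  have := x.h1 (e i (X ^ l))
  rwa [smul_e, ← pow_add, add_right_comm] at this

instance (j : ℕ) : Finite (Xs j) :=
  Finite.of_injective (fun (x : Xs j) (p : Fin 3 × Fin (j + 1)) => x.1 (e p.1 (X ^ (p.2 : ℕ))))
    fun x y h => Xs.ext <| dual_ext fun k i => by
      by_cases hk : k < j + 1
      · exact congrFun h (i, ⟨k, hk⟩)
      · rw [x.high (by omega), y.high (by omega)]

noncomputable instance (j : ℕ) : Fintype (Xs j) := Fintype.ofFinite _
noncomputable instance (j : ℕ) : DecidableEq (Xs j) := Classical.decEq _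

instance (j : ℕ) : Nonempty (Xs j) :=
  ⟨⟨(lcoeff F j) ∘ₗ (LinearMap.proj 0 : V →ₗ[F] R), fun v => by
    simp [coeff_X_pow_mul'], by simp [e]⟩⟩

/-- the action on characters -/
noncomputable instance (j : ℕ) : MulAction G (Xs j) where
  smul g x := ⟨x.1 ∘ₗ (Matrix.mulVecLin g.n).restrictScalars F, fun v => by
    simp only [LinearMap.comp_apply, LinearMap.restrictScalars_apply, mulVecLin_apply,
      mulVec_smul]
    exact x.h1 _, by
    obtain ⟨u, hu⟩ := g.hn
    have : e 0 (X ^ j) = (X : R) ^ j • e 0 1 := by rw [smul_e, mul_one]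
    simp only [LinearMap.comp_apply, LinearMap.restrictScalars_apply, mulVecLin_apply]
    rw [this, mulVec_smul, hu, smul_add, map_add, ← this, x.h2, smul_smul, ← pow_succ, x.h1,
      add_zero]⟩
  one_smul x := Xs.ext <| LinearMap.ext fun v => congrArg x.1 (one_mulVec v)
  mul_smul g g' x := Xs.ext <| LinearMap.ext fun v =>
    congrArg x.1 (mulVec_mulVec v g'.n g.n).symm

lemma smul_apply {j : ℕ} (g : G) (x : Xs j) (v : V) : (g • x).1 v = x.1 (g.n *ᵥ v) := rfl

lemma al_smul {j : ℕ} (g : G) (x : Xs j) : al g • x = g • x := rfl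

lemma T_smul {j : ℕ} (v : V) (x : Xs j) : T v • x = x := one_smul G x

/-- the additive character -/
noncomputable abbrev ψ : AddChar F ℂ := ZMod.stdAddChar

/-- monomial matrices -/
noncomputable def sg (j : ℕ) (g : G) : Matrix (Xs j) (Xs j) ℂ :=
  Matrix.of fun x' x => if x' = g • x then ψ (x'.1 g.b) else 0

lemma mul_sg {j : ℕ} {Y : Type} (M : Matrix Y (Xs j) ℂ) (g : G) (y : Y) (x : Xs j) :
    (M * sg j g) y x = M y (g • x) * ψ ((g • x).1 g.b) := by
  simp [sg, Matrix.mul_apply]

lemma sg_mul {j : ℕ} {Y : Type} (M : Matrix (Xs j) Y ℂ) (g : G) (y : Y) (x : Xs j) :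
    (sg j g * M) x y = ψ (x.1 g.b) * M (g⁻¹ • x) y := by
  simp [sg, Matrix.mul_apply, ← inv_smul_eq_iff]

/-- the monomial representation -/
noncomputable def σ (j : ℕ) : G →* Matrix (Xs j) (Xs j) ℂ where
  toFun := sg j
  map_one' := by
    ext x' x
    simp [sg, Matrix.one_apply]
  map_mul' g g' := by
    ext x' x
    rw [mul_sg]
    simp only [sg, Matrix.of_apply, mul_smul, mul_b, map_add, AddChar.map_add_eq_mul]
    split_ifs with h
    · rw [h, smul_apply g (g' • x) (g.m *ᵥ g'.b), mulVec_mulVec, g.nm, one_mulVec]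
    · simp

lemma σ_star (j : ℕ) (g : G) : (σ j g)ᴴ = σ j g⁻¹ := by
  ext x' x
  simp only [σ, MonoidHom.coe_mk, OneHom.coe_mk, sg, conjTranspose_apply, Matrix.of_apply,
    eq_inv_smul_iff, inv_b, map_neg]
  by_cases h : x = g • x'
  · rw [if_pos h, if_pos h.symm, AddChar.map_neg_eq_conj, h, smul_apply]; rfl
  · rw [if_neg h, if_neg (Ne.symm h), star_zero]

/-- restriction along multiplication by `X` -/
noncomputable def down {j : ℕ} (x : Xs (j + 1)) : Xs j :=
  ⟨x.1 ∘ₗ (LinearMap.lsmul R V X).restrictScalars F, fun v => by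
    simp only [LinearMap.comp_apply, LinearMap.restrictScalars_apply, LinearMap.lsmul_apply]
    rw [smul_smul, ← pow_succ']; exact x.h1 _, by
    simp only [LinearMap.comp_apply, LinearMap.restrictScalars_apply, LinearMap.lsmul_apply]
    rw [smul_e, ← pow_succ']; exact x.h2⟩

lemma down_apply {j : ℕ} (x : Xs (j + 1)) (v : V) : (down x).1 v = x.1 ((X : R) • v) := rfl

lemma down_smul {j : ℕ} (g : G) (x : Xs (j + 1)) : down (g • x) = g • down x :=
  Xs.ext <| LinearMap.ext fun v => by
    rw [down_apply, smul_apply, smul_apply, down_apply, mulVec_smul]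

/-- coordinatewise division by `X` -/
noncomputable def dv : V →ₗ[F] V where
  toFun v i := divX (v i)
  map_add' v w := by ext1 i; simp [divX_add]
  map_smul' c v := by ext i k; simp [coeff_divX]

lemma dv_X (v : V) : dv ((X : R) • v) = v := by
  ext i k; simp [dv, coeff_divX]

/-- the functional `v ↦ ∑ z_i v_i(0)` -/
noncomputable def lz (z : Fin 3 → F) : V →ₗ[F] F where
  toFun v := ∑ i, z i * (v i).coeff 0
  map_add' v w := by simp [mul_add, Finset.sum_add_distrib]
  map_smul' c v := by simp [Finset.mul_sum, mul_left_comm]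

lemma lz_X (z : Fin 3 → F) (v : V) : lz z ((X : R) • v) = 0 := by simp [lz]

/-- parametrisation of the fibres of `down` -/
noncomputable def up {j : ℕ} (x : Xs j) (z : Fin 3 → F) : Xs (j + 1) :=
  ⟨x.1 ∘ₗ dv + lz z, fun v => by
    rw [pow_succ', mul_smul, LinearMap.add_apply, LinearMap.comp_apply, dv_X, lz_X, x.h1,
      add_zero], by
    rw [pow_succ', ← smul_e, LinearMap.add_apply, LinearMap.comp_apply, dv_X, lz_X, x.h2,
      add_zero]⟩

lemma up_apply {j : ℕ} (x : Xs j) (z : Fin 3 → F) (v : V) :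
    (up x z).1 v = x.1 (dv v) + lz z v := rfl

lemma down_up {j : ℕ} (x : Xs j) (z : Fin 3 → F) : down (up x z) = x :=
  Xs.ext <| LinearMap.ext fun v => by rw [down_apply, up_apply, dv_X, lz_X, add_zero]

lemma up_C {j : ℕ} (x : Xs j) (z w : Fin 3 → F) :
    (up x z).1 (fun i => C (w i)) = ∑ i, z i * w i := by
  have : dv (fun i => C (w i)) = 0 := by ext1 i; simp [dv]
  rw [up_apply, this, map_zero, zero_add]; simp [lz]

lemma up_e {j : ℕ} (x : Xs j) (z : Fin 3 → F) (i : Fin 3) : (up x z).1 (e i 1) = z i := by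
  have : e i 1 = fun k => C ((Pi.single i 1 : Fin 3 → F) k) := by
    ext1 k; by_cases h : k = i <;> simp [e, h]
  rw [this, up_C]; simp [Pi.single_apply]

lemma up_down {j : ℕ} (x : Xs (j + 1)) : up (down x) (fun i => x.1 (e i 1)) = x :=
  Xs.ext <| dual_ext fun k i => by
    cases k with
    | zero => rw [pow_zero, up_e]
    | succ k => rw [pow_succ', ← smul_e, ← down_apply, down_up, down_apply]

lemma fibre_sum {j : ℕ} (x : Xs j) (w : Fin 3 → F) :
    ∑ x' : Xs (j + 1), (if down x' = x then ψ (x'.1 fun i => C (w i)) else 0) =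
      if w = 0 then 1331 else 0 := by
  have h1 : ∑ x' : Xs (j + 1), (if down x' = x then ψ (x'.1 fun i => C (w i)) else 0) =
      ∑ z : Fin 3 → F, ψ (∑ i, z i * w i) := by
    rw [← Finset.sum_filter]
    symm
    refine Finset.sum_bij' (fun z _ => up x z) (fun x' _ i => x'.1 (e i 1)) ?_ ?_ ?_ ?_ ?_
    · intro z _; simp [down_up]
    · intro x' _; simp
    · intro z _; ext1 i; exact up_e x z i
    · intro x' hx'
      rw [← (Finset.mem_filter.1 hx').2]; exact up_down x'
    · intro z _; rw [up_C]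
  have h2 : ∑ z : Fin 3 → F, ψ (∑ i, z i * w i) = ∏ i, ∑ t : F, ψ (t * w i) := by
    rw [Finset.prod_univ_sum, Fintype.piFinset_univ]
    refine Finset.sum_congr rfl fun z _ => ?_
    simp only [Fin.sum_univ_three, Fin.prod_univ_three, AddChar.map_add_eq_mul]
  rw [h1, h2]
  simp only [AddChar.sum_mulShift _ (ZMod.isPrimitive_stdAddChar 11)]
  split_ifs with h
  · subst h; simp; norm_num
  · obtain ⟨i, hi⟩ := Function.ne_iff.1 h
    exact Finset.prod_eq_zero (Finset.mem_univ i) (by simp [show w i ≠ 0 from hi])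

/-- normalising constant -/
noncomputable def κ : ℝ := (√1331)⁻¹

lemma κ_mul : (κ : ℂ) * κ * 1331 = 1 := by
  have : κ * κ * 1331 = 1 := by
    rw [κ, ← mul_inv, Real.mul_self_sqrt (by norm_num)]; norm_num
  exact_mod_cast this

/-- the connecting isometries -/
noncomputable def ι (j : ℕ) : Matrix (Xs (j + 1)) (Xs j) ℂ :=
  Matrix.of fun x' x => if down x' = x then (κ : ℂ) else 0

lemma ι_TW (j : ℕ) (w : Fin 3 → F) :
    (ι j)ᴴ * σ (j + 1) (TW w) * ι j = if w = 0 then 1 else 0 := by
  ext x y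
  have h1 : ((ι j)ᴴ * σ (j + 1) (TW w) * ι j) x y = if x = y then (κ : ℂ) * κ *
      ∑ x' : Xs (j + 1), (if down x' = x then ψ (x'.1 fun i => C (w i)) else 0) else 0 := by
    rw [Matrix.mul_apply, Finset.mul_sum]
    have : ∀ x', ((ι j)ᴴ * σ (j + 1) (TW w)) x x' =
        (if down x' = x then (κ : ℂ) else 0) * ψ (x'.1 fun i => C (w i)) := fun x' => by
      refine (mul_sg _ _ _ _).trans ?_
      rw [TW, T_smul, T_b]
      simp only [ι, conjTranspose_apply, Matrix.of_apply]
      split_ifs <;> simp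
    simp only [this]
    simp only [ι, Matrix.of_apply]
    split_ifs with h
    · subst h
      refine Finset.sum_congr rfl fun x' _ => ?_
      split_ifs
      · ring
      · simp
    · refine Finset.sum_eq_zero fun x' _ => ?_
      split_ifs with h1 h2
      · exact absurd (h1.symm.trans h2) h
      all_goals simp
  rw [h1, fibre_sum]
  by_cases hw : w = 0 <;> by_cases hxy : x = y <;> simp [hw, hxy, κ_mul, Matrix.one_apply]

lemma ι_int (j : ℕ) (g : G) : σ (j + 1) (al g) * ι j = ι j * σ j g := by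
  ext x' x
  refine (sg_mul _ _ _ _).trans (Eq.trans ?_ (mul_sg _ _ _ _).symm)
  rw [← map_inv, al_smul]
  simp only [ι, Matrix.of_apply, down_smul, inv_smul_eq_iff, al_b]
  split_ifs with h
  · rw [← h, down_apply, mul_comm]
  · simp

/-- the normalised constant vector -/
noncomputable def v₀ : Matrix (Xs 0) Unit ℂ :=
  Matrix.of fun _ _ => (((√(Fintype.card (Xs 0)))⁻¹ : ℝ) : ℂ)

lemma v₀_iso : v₀ᴴ * v₀ = 1 := by
  ext x y
  have hc : (0 : ℝ) < Fintype.card (Xs 0) := by exact_mod_cast Fintype.card_pos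
  have : (Fintype.card (Xs 0) : ℝ) * ((√(Fintype.card (Xs 0)))⁻¹ * (√(Fintype.card (Xs 0)))⁻¹) =
      1 := by
    rw [← mul_inv, Real.mul_self_sqrt hc.le, mul_inv_cancel₀ hc.ne']
  simp only [v₀, Matrix.mul_apply, conjTranspose_apply, Matrix.of_apply, Complex.star_def,
    Complex.conj_ofReal, Finset.sum_const, Finset.card_univ, nsmul_eq_mul, Matrix.one_apply_eq]
  exact_mod_cast this

lemma v₀_int (g : G) : σ 0 (al g) * v₀ = v₀ := by
  ext x y
  refine (sg_mul _ _ _ _).trans ?_
  have := x.h1 g.b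
  rw [zero_add, pow_one] at this
  rw [al_b, this, AddChar.map_zero_eq_one, one_mul]; rfl

lemma comm (j : ℕ) (c : Matrix (Xs j) (Xs j) ℂ) (hc : ∀ s, σ j (a s) * c = c * σ j (a s)) :
    (∀ x y, x ≠ y → c x y = 0) ∧ ∀ x, ((j : ℝ) + 1) * ‖c x x‖ ^ 2 ≤ ∑ y, ‖c y y‖ ^ 2 := by
  let H : Subgroup G :=
    { carrier := {g | σ j g * c = c * σ j g}
      mul_mem' := fun {g g'} hg hg' => by
        simp only [Set.mem_ofPred_eq, map_mul] at *
        rw [mul_assoc, hg', ← mul_assoc, hg, mul_assoc]
      one_mem' := by simp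
      inv_mem' := fun {g} hg => by
        simp only [Set.mem_ofPred_eq] at *
        calc σ j g⁻¹ * c = σ j g⁻¹ * (c * σ j g) * σ j g⁻¹ := by
              rw [mul_assoc, mul_assoc, ← map_mul, mul_inv_cancel, map_one, mul_one]
          _ = c * σ j g⁻¹ := by
              rw [← hg, ← mul_assoc, ← map_mul, inv_mul_cancel, map_one, one_mul] }
  obtain ⟨h1, h2⟩ := gen H hc
  refine ⟨fun x y hxy => ?_, fun x => ?_⟩
  · by_contra hne
    refine hxy (Xs.ext (dual_ext fun k i => ?_))
    have := congrFun (congrFun (h2 k i) x) y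
    rw [show σ j (T (e i (X ^ k))) = sg j (T (e i (X ^ k))) from rfl, sg_mul, mul_sg, T_smul,
      inv_smul_eq_iff.2 (T_smul _ x).symm, T_b, mul_comm] at this
    exact ZMod.injective_stdAddChar (mul_left_cancel₀ hne this)
  · have h3 : ∀ k : ℕ, c (x01 (X ^ k) • x) (x01 (X ^ k) • x) = c x x := fun k => by
      have := congrFun (congrFun (h1 k) (x01 (X ^ k) • x)) x
      rw [show σ j (x01 (X ^ k)) = sg j (x01 (X ^ k)) from rfl, sg_mul, mul_sg,
        inv_smul_smul] at this
      simpa [x01] using this.symm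
    have h4 : ∀ k l : ℕ, (x01 (X ^ k) • x).1 (e 1 (X ^ l)) =
        x.1 (e 1 (X ^ l)) - x.1 (e 0 (X ^ (k + l))) := fun k l => by
      rw [smul_apply, x01, el_n, sub_mulVec, one_mulVec, single_mulVec_eq, map_sub, pow_add]
      simp [e, ← Pi.single_smul]
    have h5 : ∀ k l : ℕ, k < l → k ≤ j → x01 (X ^ k) • x ≠ x01 (X ^ l) • x := fun k l hkl hk h => by
      have := congrArg (fun y : Xs j => y.1 (e 1 (X ^ (j - k)))) h
      simp only [h4] at this
      rw [Nat.add_sub_cancel' hk, x.h2, x.high (by omega : j < l + (j - k))] at this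
      simp at this
    have h6 : Set.InjOn (fun k : ℕ => x01 (X ^ k) • x) (Finset.range (j + 1)) := by
      intro k hk l hl h
      simp only [Finset.coe_range, Set.mem_Iio] at hk hl
      rcases lt_trichotomy k l with hkl | hkl | hkl
      · exact absurd h (h5 k l hkl (by omega))
      · exact hkl
      · exact absurd h.symm (h5 l k hkl (by omega))
    calc ((j : ℝ) + 1) * ‖c x x‖ ^ 2
        = ∑ k ∈ Finset.range (j + 1), ‖c (x01 (X ^ k) • x) (x01 (X ^ k) • x)‖ ^ 2 := by
          simp [h3]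
      _ = ∑ y ∈ (Finset.range (j + 1)).image fun k : ℕ => x01 (X ^ k) • x, ‖c y y‖ ^ 2 :=
          (Finset.sum_image (f := fun y => ‖c y y‖ ^ 2) h6).symm
      _ ≤ _ := Finset.sum_le_sum_of_subset_of_nonneg (Finset.subset_univ _)
          fun _ _ _ => by positivity

end DA

open DA in
theorem data : DataStmt :=
  ⟨{ Γ := G
     α := al
     α_inj := al_inj
     a := a
     heis := heis
     W := Fin 3 → F
     T := TW
     w₀ := 0
     T₀ := TW_zero
     free := TW_free
     perm := perm
     X := Xs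
     σ := σ
     σ_star := σ_star
     ι := ι
     ι_iso := fun j => by
       have := ι_TW j 0
       rwa [TW_zero, map_one, Matrix.mul_one, if_pos rfl] at this
     ι_int := ι_int
     ι_orth := fun j w hw => by rw [ι_TW, if_neg hw]
     v₀ := v₀
     v₀_iso := v₀_iso
     v₀_int := v₀_int
     comm := comm }⟩

end Crest.Agent.R73
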