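import Crest.Agent.R73.Defs

/-! Row 73, sub-task DATA, part A: the group. -/

set_option autoImplicit false
open Polynomial Matrix

namespace Crest.Agent.R73.DA

abbrev R : Type := Polynomial F
abbrev V : Type := Fin 3 → R
abbrev M3 : Type := Matrix (Fin 3) (Fin 3) R

instance countR : Countable R := by
  rw [← Cardinal.mk_le_aleph0_iff]
  exact Polynomial.cardinalMk_le_max.trans (max_le Cardinal.mk_le_aleph0 le_rfl)

/-- `f` times the `i`-th basis vector -/
noncomputable def e (i : Fin 3) (f : R) : V := Pi.single i f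

/-- affine maps `v ↦ m v + b` of `R³` with `m e₀ ≡ e₀` modulo `X` -/
structure G where
  b : V
  m : M3
  n : M3
  mn : m * n = 1
  h : ∃ u : V, m *ᵥ e 0 1 = e 0 1 + (X : R) • u

lemma G.nm (g : G) : g.n * g.m = 1 := mul_eq_one_comm.1 g.mn

lemma G.ext' {g g' : G} (hb : g.b = g'.b) (hm : g.m = g'.m) : g = g' := by
  have hn : g.n = g'.n := by
    calc g.n = g.n * (g'.m * g'.n) := by rw [g'.mn, mul_one]
      _ = g'.n := by rw [← mul_assoc, ← hm, g.nm, one_mul]
  cases g; cases g'; simp_all

lemma G.hn (g : G) : ∃ u : V, g.n *ᵥ e 0 1 = e 0 1 + (X : R) • u := by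
  obtain ⟨u, hu⟩ := g.h
  refine ⟨-(g.n *ᵥ u), ?_⟩
  have := congrArg (g.n *ᵥ ·) hu
  simp only [mulVec_mulVec, g.nm, one_mulVec, mulVec_add, mulVec_smul] at this
  rw [smul_neg]
  exact (eq_add_neg_iff_add_eq.2 this.symm)

noncomputable instance : Mul G := ⟨fun g g' =>
  ⟨g.b + g.m *ᵥ g'.b, g.m * g'.m, g'.n * g.n,
    by rw [mul_assoc, ← mul_assoc g'.m, g'.mn, one_mul, g.mn], by
      obtain ⟨u, hu⟩ := g.h
      obtain ⟨u', hu'⟩ := g'.h
      exact ⟨u + g.m *ᵥ u', by
        rw [← mulVec_mulVec, hu', mulVec_add, hu, mulVec_smul, smul_add, add_assoc]⟩⟩⟩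

noncomputable instance : One G := ⟨⟨0, 1, 1, mul_one _, 0, by simp⟩⟩

noncomputable instance : Inv G := ⟨fun g => ⟨-(g.n *ᵥ g.b), g.n, g.m, g.nm, g.hn⟩⟩

@[simp] lemma mul_b (g g' : G) : (g * g').b = g.b + g.m *ᵥ g'.b := rfl
@[simp] lemma mul_m (g g' : G) : (g * g').m = g.m * g'.m := rfl
@[simp] lemma mul_n (g g' : G) : (g * g').n = g'.n * g.n := rfl
@[simp] lemma one_b : (1 : G).b = 0 := rfl
@[simp] lemma one_m : (1 : G).m = 1 := rfl
@[simp] lemma one_n : (1 : G).n = 1 := rfl
@[simp] lemma inv_b (g : G) : g⁻¹.b = -(g.n *ᵥ g.b) := rfl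
@[simp] lemma inv_m (g : G) : g⁻¹.m = g.n := rfl
@[simp] lemma inv_n (g : G) : g⁻¹.n = g.m := rfl

noncomputable instance : Group G := Group.ofLeftAxioms
  (fun a b c => G.ext' (by simp [mulVec_add, add_assoc]) (by simp [mul_assoc]))
  (fun a => G.ext' (by simp) (by simp))
  (fun a => G.ext' (by simp) (by simp [a.nm]))

instance : Countable G :=
  Function.Injective.countable (f := fun g : G => (g.b, fun i j => g.m i j)) fun _ _ h =>
    G.ext' (congrArg Prod.fst h) (congrArg Prod.snd h)

/-- the injective endomorphism -/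
noncomputable def al : G →* G where
  toFun g := ⟨(X : R) • g.b, g.m, g.n, g.mn, g.h⟩
  map_one' := G.ext' (by simp) rfl
  map_mul' g g' := G.ext' (by simp [mulVec_smul]) rfl

@[simp] lemma al_b (g : G) : (al g).b = (X : R) • g.b := rfl
@[simp] lemma al_m (g : G) : (al g).m = g.m := rfl
@[simp] lemma al_n (g : G) : (al g).n = g.n := rfl

lemma al_inj : Function.Injective al := fun _ _ h =>
  G.ext' (smul_right_injective V (X_ne_zero (R := F)) (congrArg G.b h)) (congrArg G.m h :)

/-- translation -/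
noncomputable def T (v : V) : G := ⟨v, 1, 1, mul_one _, 0, by simp⟩

@[simp] lemma T_b (v : V) : (T v).b = v := rfl
@[simp] lemma T_m (v : V) : (T v).m = 1 := rfl
@[simp] lemma T_n (v : V) : (T v).n = 1 := rfl

/-- elementary matrix -/
noncomputable def el (i j : Fin 3) (f : R) (hij : j ≠ i) (hf : j = 0 → X ∣ f) : G :=
  ⟨0, 1 + single i j f, 1 - single i j f, by
    simp [mul_sub, add_mul, single_mul_single_of_ne _ _ _ _ hij], by
    by_cases hj : j = 0
    · obtain ⟨g, rfl⟩ := hf hj
      refine ⟨e i g, ?_⟩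
      subst hj
      rw [add_mulVec, one_mulVec, single_mulVec_eq]
      simp [e, ← Pi.single_smul]
    · exact ⟨0, by rw [add_mulVec, one_mulVec, single_mulVec_eq]; simp [e, hj]⟩⟩

@[simp] lemma el_b (i j : Fin 3) (f : R) (hij : j ≠ i) (hf : j = 0 → X ∣ f) :
    (el i j f hij hf).b = 0 := rfl
@[simp] lemma el_m (i j : Fin 3) (f : R) (hij : j ≠ i) (hf : j = 0 → X ∣ f) :
    (el i j f hij hf).m = 1 + single i j f := rfl
@[simp] lemma el_n (i j : Fin 3) (f : R) (hij : j ≠ i) (hf : j = 0 → X ∣ f) :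
    (el i j f hij hf).n = 1 - single i j f := rfl

noncomputable def x01 (f : R) : G := el 0 1 f (by decide) (by simp)
noncomputable def x02 (f : R) : G := el 0 2 f (by decide) (by simp)
noncomputable def x12 (f : R) : G := el 1 2 f (by decide) (by simp)
noncomputable def x21 (f : R) : G := el 2 1 f (by decide) (by simp)
noncomputable def x10 (f : R) : G := el 1 0 (X * f) (by decide) fun _ => dvd_mul_right _ _
noncomputable def x20 (f : R) : G := el 2 0 (X * f) (by decide) fun _ => dvd_mul_right _ _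

/-- checks an identity between explicit elements entry by entry -/
macro "gcheck" : tactic => `(tactic|
  (refine G.ext' (funext fun i => ?_) (Matrix.ext fun i j => ?_)
   · fin_cases i <;>
      simp [x01, x02, x12, x21, x10, x20, e, mulVec, dotProduct, Fin.sum_univ_three,
        Matrix.one_apply, Matrix.single_apply] <;> ring
   · fin_cases i <;> fin_cases j <;>
      simp [x01, x02, x12, x21, x10, x20, Matrix.mul_apply, Fin.sum_univ_three,
        Matrix.one_apply, Matrix.single_apply] <;> ring))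

lemma x01_add (f g : R) : x01 (f + g) = x01 f * x01 g := by gcheck
lemma x02_add (f g : R) : x02 (f + g) = x02 f * x02 g := by gcheck
lemma x12_add (f g : R) : x12 (f + g) = x12 f * x12 g := by gcheck
lemma x21_add (f g : R) : x21 (f + g) = x21 f * x21 g := by gcheck
lemma x10_add (f g : R) : x10 (f + g) = x10 f * x10 g := by gcheck
lemma x20_add (f g : R) : x20 (f + g) = x20 f * x20 g := by gcheck
lemma T_add (v w : V) : T (v + w) = T v * T w := G.ext' (by simp) (by simp)
lemma T_comm (v w : V) : T v * T w = T w * T v := by rw [← T_add, add_comm, T_add]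
lemma x01_zero : x01 0 = 1 := by gcheck

lemma r01_12 (f g : R) : x01 f * x12 g = x02 (f * g) * (x12 g * x01 f) := by gcheck
lemma c02_01 (f g : R) : x02 f * x01 g = x01 g * x02 f := by gcheck
lemma c02_12 (f g : R) : x02 f * x12 g = x12 g * x02 f := by gcheck
lemma r01_20 (f g : R) : x01 f * x20 g = x21 (-(X * (f * g))) * (x20 g * x01 f) := by gcheck
lemma c21_01 (f g : R) : x21 f * x01 g = x01 g * x21 f := by gcheck
lemma c21_20 (f g : R) : x21 f * x20 g = x20 g * x21 f := by gcheck
lemma r12_20 (f g : R) : x12 f * x20 g = x10 (f * g) * (x20 g * x12 f) := by gcheck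
lemma c10_12 (f g : R) : x10 f * x12 g = x12 g * x10 f := by gcheck
lemma c10_20 (f g : R) : x10 f * x20 g = x20 g * x10 f := by gcheck
lemma c01_T (f g : R) : x01 f * T (e 2 g) = T (e 2 g) * x01 f := by gcheck
lemma c20_T (f g : R) : x20 f * T (e 2 g) = T (e 2 g) * x20 f := by gcheck
lemma r12_T (f g : R) : x12 f * T (e 2 g) = T (e 1 (f * g)) * (T (e 2 g) * x12 f) := by gcheck
lemma cT_12 (f g : R) : T (e 1 f) * x12 g = x12 g * T (e 1 f) := by gcheck
lemma r01_T (f g : R) : x01 f * T (e 1 g) = T (e 0 (f * g)) * (T (e 1 g) * x01 f) := by gcheck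
lemma r20_T (f g : R) :
    x20 f * T (e 0 g) = T (e 2 (X * (f * g))) * (T (e 0 g) * x20 f) := by gcheck
lemma r02_21 (f g : R) : x02 f * x21 g = x01 (f * g) * (x21 g * x02 f) := by gcheck

/-- the generators -/
noncomputable def a (s : S) : G :=
  ![x01 (C s.2), x12 (C s.2), x20 (C s.2), T (e 2 (C s.2))] s.1

@[simp] lemma a0 (c : F) : a (0, c) = x01 (C c) := rfl
@[simp] lemma a1 (c : F) : a (1, c) = x12 (C c) := rfl
@[simp] lemma a2 (c : F) : a (2, c) = x20 (C c) := rfl
@[simp] lemma a3 (c : F) : a (3, c) = T (e 2 (C c)) := rfl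

lemma e_add (i : Fin 3) (f g : R) : e i (f + g) = e i f + e i g := Pi.single_add _ _ _

lemma heis : Heis a where
  add i c d := by
    fin_cases i <;> simp [x01_add, x12_add, x20_add, e_add, T_add]
  pair i j hij := by
    fin_cases i <;> fin_cases j <;> simp at hij
    · exact ⟨fun c => x02 (C c), fun c d => by simp only [C_add, x02_add],
        fun c d => by simp only [C_mul]; exact r01_12 _ _, fun c d => c02_01 _ _, fun c d => c02_12 _ _⟩
    · exact ⟨fun c => x21 (-(X * C c)), fun c d => by simp only [C_add, mul_add, neg_add, x21_add],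
        fun c d => by simp only [C_mul]; exact r01_20 _ _, fun c d => c21_01 _ _, fun c d => c21_20 _ _⟩
    · exact ⟨fun _ => 1, fun c d => (mul_one _).symm,
        fun c d => by rw [one_mul]; exact c01_T _ _, fun c d => by simp, fun c d => by simp⟩
    · exact ⟨fun c => x10 (C c), fun c d => by simp only [C_add, x10_add],
        fun c d => by simp only [C_mul]; exact r12_20 _ _, fun c d => c10_12 _ _, fun c d => c10_20 _ _⟩
    · exact ⟨fun c => T (e 1 (C c)), fun c d => by simp only [C_add, e_add, T_add],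
        fun c d => by simp only [C_mul]; exact r12_T _ _, fun c d => cT_12 _ _, fun c d => T_comm _ _⟩
    · exact ⟨fun _ => 1, fun c d => (mul_one _).symm,
        fun c d => by rw [one_mul]; exact c20_T _ _, fun c d => by simp, fun c d => by simp⟩

/-- constant translations -/
noncomputable def TW (w : Fin 3 → F) : G := T fun i => C (w i)

lemma TW_zero : TW 0 = 1 := G.ext' (by ext1 i; simp [TW]) rfl

lemma TW_free (w : Fin 3 → F) (hw : w ≠ 0) (g : G) : TW w ≠ al g := fun h => hw <| by
  ext1 i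
  have := congrArg (fun g : G => (g.b i).coeff 0) h
  simpa [TW] using this

/-- the shear `w ↦ w + c w_j e_i` -/
def shear (i j : Fin 3) (hij : j ≠ i) (c : F) : (Fin 3 → F) ≃ (Fin 3 → F) where
  toFun w := w + Pi.single i (c * w j)
  invFun w := w - Pi.single i (c * w j)
  left_inv w := by simp [hij]
  right_inv w := by simp [hij]

lemma perm (s : S) : ∃ p : (Fin 3 → F) ≃ (Fin 3 → F), ∀ w, ∃ s₁ s₂ : S,
    a s * TW w = TW (p w) * al (a s₁) * al (a s₂) := by
  obtain ⟨i, c⟩ := s
  fin_cases i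
  · refine ⟨shear 0 1 (by decide) c, fun w => ⟨(0, c), (0, 0), ?_⟩⟩
    simp only [Fin.zero_eta, a0, TW, shear, Equiv.coe_fn_mk]
    gcheck
  · refine ⟨shear 1 2 (by decide) c, fun w => ⟨(1, c), (0, 0), ?_⟩⟩
    simp only [Fin.mk_one, a0, a1, TW, shear, Equiv.coe_fn_mk]
    gcheck
  · refine ⟨Equiv.refl _, fun w => ⟨(3, c * w 0), (2, c), ?_⟩⟩
    simp only [Fin.reduceFinMk, a2, a3, TW, Equiv.refl_apply]
    gcheck
  · refine ⟨Equiv.addRight (Pi.single 2 c), fun w => ⟨(0, 0), (0, 0), ?_⟩⟩
    simp only [Fin.reduceFinMk, a0, a3, TW, Equiv.coe_addRight]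
    gcheck

/-- a subgroup containing the generators contains the elements used later -/
lemma gen (H : Subgroup G) (hH : ∀ s, a s ∈ H) :
    (∀ k : ℕ, x01 (X ^ k) ∈ H) ∧ ∀ (k : ℕ) (i : Fin 3), T (e i (X ^ k)) ∈ H := by
  have key : ∀ {p q z : G}, p ∈ H → q ∈ H → p * q = z * (q * p) → z ∈ H := fun {p q z} hp hq h => by
    have : z = p * q * (q * p)⁻¹ := by rw [h]; group
    rw [this]
    exact H.mul_mem (H.mul_mem hp hq) (H.inv_mem (H.mul_mem hq hp))
  have h01 : x01 1 ∈ H := by simpa using hH (0, 1)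
  have h01' : x01 (-1) ∈ H := by simpa using hH (0, -1)
  have h12 : x12 1 ∈ H := by simpa using hH (1, 1)
  have h20 : x20 1 ∈ H := by simpa using hH (2, 1)
  have hT : T (e 2 1) ∈ H := by simpa using hH (3, 1)
  have h21 : x21 X ∈ H := by simpa using key h01' h20 (r01_20 _ _)
  have hT1 : ∀ f, T (e 2 f) ∈ H → T (e 1 f) ∈ H := fun f hf => by
    simpa using key h12 hf (r12_T _ _)
  have hT0 : ∀ f, T (e 1 f) ∈ H → T (e 0 f) ∈ H := fun f hf => by
    simpa using key h01 hf (r01_T _ _)
  have hT2 : ∀ k : ℕ, T (e 2 (X ^ k)) ∈ H := fun k => by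
    induction k with
    | zero => simpa using hT
    | succ k ih => simpa [pow_succ'] using key h20 (hT0 _ (hT1 _ ih)) (r20_T _ _)
  refine ⟨fun k => ?_, fun k i => ?_⟩
  · induction k with
    | zero => simpa using h01
    | succ k ih =>
      have h02 : x02 (X ^ k) ∈ H := by simpa using key ih h12 (r01_12 _ _)
      simpa [pow_succ] using key h02 h21 (r02_21 _ _)
  · fin_cases i
    · exact hT0 _ (hT1 _ (hT2 k))
    · exact hT1 _ (hT2 k)
    · exact hT2 k

end Crest.Agent.R73.DA
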