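import Mathlib
import Crest.Prelude.Def_CStarEmbedding

/-! Row 73 (Kirchberg's embedding problem): interface definitions and sub-task statements. -/

set_option autoImplicit false
open Filter Topology Crest.AnalysisR.CStarEmbedding
open scoped Matrix Kronecker BoundedContinuousFunction

namespace Crest.Agent.R73

abbrev F : Type := ZMod 11

instance fact11 : Fact (Nat.Prime 11) := ⟨by norm_num⟩

/-- Index set of the Kazhdan generators: four root subgroups, each a copy of `F`. -/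
abbrev S : Type := Fin 4 × F

/-- Average over the 44 generators. -/
noncomputable def avg {B : Type} [AddCommGroup B] [Module ℂ B] (u : S → B) : B :=
  (44 : ℂ)⁻¹ • ∑ s, u s

/-- Four copies of `(F,+)` in a group, pairwise generating quotients of the Heisenberg group. -/
structure Heis {Γ : Type} [Group Γ] (a : S → Γ) : Prop where
  add : ∀ i c d, a (i, c + d) = a (i, c) * a (i, d)
  pair : ∀ i j : Fin 4, i < j → ∃ z : F → Γ, (∀ c d, z (c + d) = z c * z d) ∧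
    (∀ c d, a (i, c) * a (j, d) = z (c * d) * (a (j, d) * a (i, c))) ∧
    (∀ c d, z c * a (i, d) = a (i, d) * z c) ∧ (∀ c d, z c * a (j, d) = a (j, d) * z c)

/-- `p` is the spectral projection of `h` at `1`, with a spectral gap. -/
structure IsKaz {B : Type} [CStarAlgebra B] (h p : B) : Prop where
  sa : star p = p
  idem : p * p = p
  hp : h * p = p
  ph : p * h = p
  gap : ‖h - p‖ ≤ 49 / 50

/-- Sub-task GAP (property (T) in C⋆-form). -/
def GapStmt : Prop :=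
  ∀ (Γ : Type) [Group Γ] (a : S → Γ), Heis a → ∀ (B : Type) [CStarAlgebra B] (U : Γ →* unitary B),
    ∃ p : B, IsKaz (avg fun s => ((U (a s) : unitary B) : B)) p ∧
      ∀ s, ((U (a s) : unitary B) : B) * p = p

/-- All the group theory that the proof uses. -/
structure Data where
  Γ : Type
  [grp : Group Γ]
  [cnt : Countable Γ]
  α : Γ →* Γ
  α_inj : Function.Injective α
  a : S → Γ
  heis : Heis a
  W : Type
  [finW : Fintype W]
  T : W → Γ
  w₀ : W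
  T₀ : T w₀ = 1
  free : ∀ w, w ≠ w₀ → ∀ g, T w ≠ α g
  perm : ∀ s : S, ∃ e : W ≃ W, ∀ w, ∃ s₁ s₂ : S, a s * T w = T (e w) * α (a s₁) * α (a s₂)
  X : ℕ → Type
  [finX : ∀ j, Fintype (X j)]
  [decX : ∀ j, DecidableEq (X j)]
  [neX : ∀ j, Nonempty (X j)]
  σ : ∀ j, Γ →* Matrix (X j) (X j) ℂ
  σ_star : ∀ j g, (σ j g)ᴴ = σ j g⁻¹
  ι : ∀ j, Matrix (X (j + 1)) (X j) ℂ
  ι_iso : ∀ j, (ι j)ᴴ * ι j = 1
  ι_int : ∀ j g, σ (j + 1) (α g) * ι j = ι j * σ j g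
  ι_orth : ∀ j w, w ≠ w₀ → (ι j)ᴴ * σ (j + 1) (T w) * ι j = 0
  v₀ : Matrix (X 0) Unit ℂ
  v₀_iso : v₀ᴴ * v₀ = 1
  v₀_int : ∀ g, σ 0 (α g) * v₀ = v₀
  comm : ∀ j (c : Matrix (X j) (X j) ℂ), (∀ s, σ j (a s) * c = c * σ j (a s)) →
    (∀ x y, x ≠ y → c x y = 0) ∧ ∀ x, ((j : ℝ) + 1) * ‖c x x‖ ^ 2 ≤ ∑ y, ‖c y y‖ ^ 2

attribute [instance] Data.grp Data.cnt Data.finW Data.finX Data.decX Data.neX

/-- Sub-task DATA. -/
def DataStmt : Prop := Nonempty Data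

/-- Sub-task UNIV (1): full group C⋆-algebras exist. -/
def GroupStmt : Prop :=
  ∀ (G : Type) [Group G], ∃ (A : Type) (_ : CStarAlgebra A) (u : G →* unitary A),
    IsFullGroupCStar A u

/-- Sub-task UNIV (2): the Cuntz algebra exists and is nonzero. -/
def CuntzStmt : Prop :=
  ∃ (O : Type) (_ : CStarAlgebra O) (s₁ s₂ : O), IsCuntzTwo O s₁ s₂ ∧ Nontrivial O

/-- Sub-task ULTRA: the norm ultrapower as a C⋆-algebra, and the ⋆-homomorphism induced by an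
`IsUltrapowerEmbedding`. -/
def UltraStmt : Prop :=
  ∀ (ω : Ultrafilter ℕ) (O : Type) [CStarAlgebra O],
    ∃ (B : Type) (_ : CStarAlgebra B) (q : (ℕ →ᵇ O) →⋆ₐ[ℂ] B),
      (∀ b : ℕ →ᵇ O, Tendsto (fun n => ‖b n‖) (ω : Filter ℕ) (𝓝 ‖q b‖)) ∧
      ∀ (A : Type) [CStarAlgebra A] (φ : ℕ → A → O), IsUltrapowerEmbedding ω A O φ →
        ∃ π : A →⋆ₐ[ℂ] B, (∀ x, ‖π x‖ = ‖x‖) ∧
          ∀ x, ∃ b : ℕ →ᵇ O, (∀ n, b n = φ n x) ∧ π x = q b

/-- Isometries with pairwise orthogonal ranges. -/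
def Orth {O : Type} [Ring O] [StarRing O] {X : Type} [DecidableEq X] (r : X → O) : Prop :=
  ∀ x y, star (r x) * r y = if x = y then 1 else 0

/-- A Cuntz family: orthogonal isometries whose range projections sum to `1`. -/
def Cuntz {O : Type} [Ring O] [StarRing O] {X : Type} [Fintype X] [DecidableEq X] (r : X → O) :
    Prop :=
  Orth r ∧ ∑ x, r x * star (r x) = 1

/-- The element `∑ M x' x • r' x' (r x)⋆` of a scalar matrix `M`. -/
noncomputable def mu {O : Type} [Ring O] [StarRing O] [Algebra ℂ O] {X' X : Type} [Fintype X']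
    [Fintype X] (r' : X' → O) (r : X → O) (M : Matrix X' X ℂ) : O :=
  ∑ x', ∑ x, M x' x • (r' x' * star (r x))

/-- The amplification `a ↦ ∑ r x a (r x)⋆`. -/
noncomputable def lam {O : Type} [Ring O] [StarRing O] {X : Type} [Fintype X] (r : X → O)
    (b : O) : O :=
  ∑ x, r x * b * star (r x)

/-- Sub-task APPROX (completely positive approximation in the Cuntz algebra). -/
def ApproxStmt : Prop :=
  ∀ (O : Type) [CStarAlgebra O] (s₁ s₂ : O), IsCuntzTwo O s₁ s₂ → ∀ (x : S → O) (η : ℝ), 0 < η →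
    ∃ (I : Type) (_ : Fintype I) (_ : DecidableEq I) (t : I → O) (v : O) (y : S → Matrix I I ℂ),
      Orth t ∧ ‖v‖ ≤ 1 ∧ (∀ s, ‖mu t t (y s)‖ ≤ ‖x s‖ + η) ∧
        ∀ s, ‖x s - star v * mu t t (y s) * v‖ ≤ η

/-- Squared Hilbert–Schmidt norm. -/
noncomputable def hs {X Y : Type} [Fintype X] [Fintype Y] (b : Matrix X Y ℂ) : ℝ :=
  ∑ x, ∑ y, ‖b x y‖ ^ 2

/-- Squared Euclidean norm of a vector. -/
noncomputable def nsq {X : Type} [Fintype X] (ξ : X → ℂ) : ℝ := ∑ x, ‖ξ x‖ ^ 2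

/-- Sub-task HAAG (Haagerup's Cauchy–Schwarz inequality plus a rank bound). -/
def HaagStmt : Prop :=
  ∀ (I X : Type) [Fintype I] [DecidableEq I] [Fintype X] [DecidableEq X]
    (y : S → Matrix I I ℂ) (σ : S → Matrix X X ℂ) (θ δ : ℝ), 0 ≤ θ → 0 ≤ δ →
    (∀ s ξ, nsq (y s *ᵥ ξ) ≤ nsq ξ) →
    (∀ b : Matrix X X ℂ, ∃ c : Matrix X X ℂ, (∀ x x', x ≠ x' → c x x' = 0) ∧
      (∀ x, ‖c x x‖ ^ 2 ≤ δ ^ 2 * hs b) ∧
      hs (avg (fun s => σ s * b * (σ s)ᴴ) - c) ≤ θ ^ 2 * hs b) →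
    ∀ ξ : I × X → ℂ,
      nsq (avg (fun s => y s ⊗ₖ σ s) *ᵥ ξ) ≤ (θ + δ * √(Fintype.card I)) * nsq ξ

/-- Sub-task COMM: the averaging hypothesis of `HaagStmt` for the monomial representations. -/
def CommStmt : Prop :=
  ∀ (D : Data) (j : ℕ) (b : Matrix (D.X j) (D.X j) ℂ), ∃ c : Matrix (D.X j) (D.X j) ℂ,
    (∀ x x', x ≠ x' → c x x' = 0) ∧ (∀ x, ‖c x x‖ ^ 2 ≤ ((√((j : ℝ) + 1))⁻¹) ^ 2 * hs b) ∧
      hs (avg (fun s => D.σ j (D.a s) * b * (D.σ j (D.a s))ᴴ) - c) ≤ (49 / 50) ^ 2 * hs b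

/-- Sub-task EXACT: a tuple in the Cuntz algebra almost contains only finitely many levels. -/
def ExactStmt : Prop :=
  ∀ (D : Data) (O : Type) [CStarAlgebra O] [Nontrivial O] (s₁ s₂ : O), IsCuntzTwo O s₁ s₂ →
    ∀ (r : ∀ j, D.X j → O), (∀ j, Cuntz (r j)) → ∀ x : S → O, (∀ s, ‖x s‖ ≤ 1 + 1 / 1000) →
      ∀ᶠ j in atTop,
        ‖avg fun s => lam (r j) (x s) * mu (r j) (r j) (D.σ j (D.a s))‖ ≤ 199 / 200

end Crest.Agent.R73
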