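import Crest.Agent.R73.Mu

/-! Row 73: exactness of the Cuntz algebra against the monomial representations. -/

set_option autoImplicit false
set_option linter.unusedSectionVars false
open Filter Topology Crest.AnalysisR.CStarEmbedding
open scoped Matrix Kronecker Matrix.Norms.L2Operator

namespace Crest.Agent.R73

section
variable {I : Type} [Fintype I] [DecidableEq I]

theorem nsq_eq (ξ : I → ℂ) : nsq ξ = ‖(WithLp.toLp 2 ξ : EuclideanSpace ℂ I)‖ ^ 2 := by
  rw [EuclideanSpace.norm_sq_eq]; rfl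

theorem nsq_le_of_norm {M : Matrix I I ℂ} (h : ‖M‖ ≤ 1) (ξ : I → ℂ) : nsq (M *ᵥ ξ) ≤ nsq ξ := by
  rw [nsq_eq, nsq_eq, ← Matrix.toEuclideanCLM_toLp]
  have h1 := (Matrix.toEuclideanCLM (n := I) (𝕜 := ℂ) M).le_opNorm (WithLp.toLp 2 ξ)
  rw [← Matrix.cstar_norm_def] at h1
  have h2 : ‖M‖ * ‖(WithLp.toLp 2 ξ : EuclideanSpace ℂ I)‖ ≤ ‖(WithLp.toLp 2 ξ :
      EuclideanSpace ℂ I)‖ := mul_le_of_le_one_left (norm_nonneg _) h
  exact pow_le_pow_left₀ (norm_nonneg _) (h1.trans h2) 2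

theorem norm_le_of_nsq {M : Matrix I I ℂ} {c : ℝ} (hc : 0 ≤ c)
    (h : ∀ ξ, nsq (M *ᵥ ξ) ≤ c ^ 2 * nsq ξ) : ‖M‖ ≤ c := by
  rw [Matrix.cstar_norm_def]
  refine ContinuousLinearMap.opNorm_le_bound _ hc fun ξ => ?_
  have := h ξ.ofLp
  rw [nsq_eq, nsq_eq, ← Matrix.toEuclideanCLM_toLp, ← mul_pow] at this
  exact (pow_le_pow_iff_left₀ (norm_nonneg _) (by positivity) two_ne_zero).1 this
end

theorem card_S : Fintype.card S = 44 := by simp [S, ZMod.card]

theorem norm_avg_le {B : Type} [CStarAlgebra B] {u : S → B} {c : ℝ} (h : ∀ s, ‖u s‖ ≤ c) :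
    ‖avg u‖ ≤ c := by
  rw [avg, norm_smul]
  have : ‖∑ s, u s‖ ≤ 44 * c := by
    refine (norm_sum_le _ _).trans ((Finset.sum_le_sum fun s _ => h s).trans ?_)
    simp
  simp only [norm_inv, Complex.norm_ofNat]
  linarith

theorem norm_mu_sigma {O : Type} [CStarAlgebra O] (D : Data) (j : ℕ) {r : D.X j → O}
    (hr : Cuntz r) (g : D.Γ) : ‖mu r r (D.σ j g)‖ ≤ 1 := by
  have h : star (mu r r (D.σ j g)) * mu r r (D.σ j g) = 1 := by
    rw [mu_star, mu_mul _ hr.1, D.σ_star, ← map_mul, inv_mul_cancel, map_one, mu_one hr]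
  have h1 := CStarRing.norm_star_mul_self (x := mu r r (D.σ j g))
  rw [h] at h1
  have h2 : ‖(1 : O)‖ ≤ 1 := by
    rcases subsingleton_or_nontrivial O with h | h
    · rw [Subsingleton.elim (1 : O) 0]; simp
    · simp
  nlinarith [norm_nonneg (mu r r (D.σ j g))]

theorem exact_of (hA : ApproxStmt) (hH : HaagStmt) (hC : CommStmt) : ExactStmt := by
  intro D O _ _ s₁ s₂ hO r hr x hx
  obtain ⟨I, _, _, t, v, y, ht, hv, hy, hxy⟩ := hA O s₁ s₂ hO x (1 / 1000) (by norm_num)
  have hlim : Tendsto (fun j : ℕ => (√((j : ℝ) + 1))⁻¹ * √(Fintype.card I)) atTop (𝓝 0) := by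
    have h1 : Tendsto (fun j : ℕ => √((j : ℝ) + 1)) atTop atTop :=
      Real.tendsto_sqrt_atTop.comp (tendsto_natCast_atTop_atTop.atTop_add tendsto_const_nhds)
    simpa using h1.inv_tendsto_atTop.mul_const (√(Fintype.card I))
  filter_upwards [hlim.eventually (gt_mem_nhds (show (0 : ℝ) < 1 / 1000 by norm_num))] with j hj
  set c : ℝ := 1002 / 1000 with hc
  let y' : S → Matrix I I ℂ := fun s => ((c : ℂ)⁻¹) • y s
  have hy' : ∀ s, ‖y' s‖ ≤ 1 := by
    intro s
    have h1 : ‖y s‖ = ‖mu t t (y s)‖ :=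
      (NonUnitalStarAlgHom.norm_map (muHom ht) (muHom_inj ht) (y s)).symm
    have h2 : ‖y s‖ ≤ c := h1.le.trans ((hy s).trans ((add_le_add_left (hx s) _).trans (by norm_num [hc])))
    simp only [y', norm_smul, norm_inv, Complex.norm_real, hc]
    rw [Real.norm_of_nonneg (by norm_num), inv_mul_le_iff₀ (by norm_num), mul_one]
    exact h2
  have h1 := hH I (D.X j) y' (fun s => D.σ j (D.a s)) (49 / 50) (√((j : ℝ) + 1))⁻¹ (by norm_num)
    (by positivity) (fun s => nsq_le_of_norm (hy' s)) (hC D j)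
  have h2 : ‖avg fun s => y' s ⊗ₖ D.σ j (D.a s)‖ ≤ 991 / 1000 := by
    refine norm_le_of_nsq (by norm_num) fun ξ => (h1 ξ).trans ?_
    have : 0 ≤ nsq ξ := Finset.sum_nonneg fun _ _ => by positivity
    refine mul_le_mul_of_nonneg_right ?_ this
    linarith
  have hp := ht.prod (hr j).1
  have h3 : (avg fun s => lam (r j) (mu t t (y s)) * mu (r j) (r j) (D.σ j (D.a s)))
      = (c : ℂ) • muHom hp (avg fun s => y' s ⊗ₖ D.σ j (D.a s)) := by
    simp only [avg, map_smul, map_sum, muHom_apply, lam_mu_mul_mu (hr j).1, y',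
      Matrix.smul_kronecker]
    rw [smul_comm, ← Finset.smul_sum, smul_smul (c : ℂ), mul_inv_cancel₀ (by simp [hc]), one_smul]
  have h4 : ‖avg fun s => lam (r j) (mu t t (y s)) * mu (r j) (r j) (D.σ j (D.a s))‖
      ≤ c * (991 / 1000) := by
    rw [h3, norm_smul, Complex.norm_real, Real.norm_of_nonneg (by norm_num [hc])]
    exact mul_le_mul_of_nonneg_left ((NonUnitalStarAlgHom.norm_apply_le _ _).trans h2)
      (by norm_num [hc])
  have h5 : (avg fun s => lam (r j) (x s) * mu (r j) (r j) (D.σ j (D.a s)))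
      = (avg fun s => lam (r j) (x s - star v * mu t t (y s) * v) *
          mu (r j) (r j) (D.σ j (D.a s))) + lam (r j) (star v) *
        (avg fun s => lam (r j) (mu t t (y s)) * mu (r j) (r j) (D.σ j (D.a s))) *
          lam (r j) v := by
    simp only [avg, mul_smul_comm, smul_mul_assoc, ← smul_add, Finset.mul_sum, Finset.sum_mul,
      ← Finset.sum_add_distrib]
    congr 1
    refine Finset.sum_congr rfl fun s _ => ?_
    rw [mul_assoc (lam (r j) (star v)), mul_assoc (lam (r j) (mu t t (y s))),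
      ← lam_mul_mu (hr j).1 (hr j).1]
    simp only [← lamHom_apply (hr j), map_sub, map_mul, sub_mul, mul_assoc, sub_add_cancel]
  have hl : ∀ b, ‖lam (r j) b‖ ≤ ‖b‖ := fun b =>
    NonUnitalStarAlgHom.norm_apply_le (lamHom (hr j)) b
  have h6 : ‖avg fun s => lam (r j) (x s - star v * mu t t (y s) * v) *
      mu (r j) (r j) (D.σ j (D.a s))‖ ≤ 1 / 1000 := by
    refine norm_avg_le fun s => (norm_mul_le _ _).trans ?_
    have := mul_le_mul ((hl _).trans (hxy s)) (norm_mu_sigma D j (hr j) (D.a s)) (norm_nonneg _)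
      (by norm_num)
    linarith
  rw [h5]
  refine (norm_add_le _ _).trans ?_
  have h7 := (norm_mul₃_le (a := lam (r j) (star v))
    (b := avg fun s => lam (r j) (mu t t (y s)) * mu (r j) (r j) (D.σ j (D.a s)))
    (c := lam (r j) v))
  have h8 : ‖lam (r j) (star v)‖ ≤ 1 := (hl _).trans (by rwa [norm_star])
  have h9 : ‖lam (r j) v‖ ≤ 1 := (hl _).trans hv
  have h10 := mul_le_mul (mul_le_mul h8 h4 (norm_nonneg _) zero_le_one) h9 (norm_nonneg _)
    (by norm_num [hc])
  rw [hc] at h10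
  linarith

end Crest.Agent.R73
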