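import Crest.Agent.R73.Wit
import Crest.Agent.R73.Exact

/-! Row 73: assembly. -/

set_option autoImplicit false
set_option linter.unusedSectionVars false
open Filter Topology Crest.AnalysisR.CStarEmbedding
open scoped Matrix BoundedContinuousFunction

namespace Crest.Agent.R73

section rep
variable {O B : Type} [CStarAlgebra O] [CStarAlgebra B] (q : (ℕ →ᵇ O) →⋆ₐ[ℂ] B)

/-- `x` is the class of the bounded sequence `f`. -/
def Rep (x : B) (f : ℕ → O) : Prop := ∃ b : ℕ →ᵇ O, (∀ n, b n = f n) ∧ x = q b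

variable {q}

theorem Rep.unique {x y : B} {f g : ℕ → O} (hx : Rep q x f) (hy : Rep q y g)
    (h : ∀ n, f n = g n) : x = y := by
  obtain ⟨b, hb, rfl⟩ := hx
  obtain ⟨c, hc, rfl⟩ := hy
  congr 1
  ext n
  rw [hb, hc, h]

theorem Rep.mul {x y : B} {f g : ℕ → O} (hx : Rep q x f) (hy : Rep q y g) :
    Rep q (x * y) fun n => f n * g n := by
  obtain ⟨b, hb, rfl⟩ := hx
  obtain ⟨c, hc, rfl⟩ := hy
  exact ⟨b * c, fun n => by simp [hb, hc], by simp⟩

theorem Rep.star {x : B} {f : ℕ → O} (hx : Rep q x f) : Rep q (star x) fun n => star (f n) := by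
  obtain ⟨b, hb, rfl⟩ := hx
  exact ⟨Star.star b, fun n => by simp [hb], by simp [map_star]⟩

theorem Rep.smul_one (c : ℂ) : Rep q (c • (1 : B)) fun _ => c • (1 : O) :=
  ⟨c • 1, fun n => by simp, by simp⟩

theorem Rep.one : Rep q (1 : B) fun _ => (1 : O) := ⟨1, fun n => by simp, by simp⟩

theorem Rep.avg {x : S → B} {f : S → ℕ → O} (hx : ∀ s, Rep q (x s) (f s)) :
    Rep q (avg x) fun n => avg fun s => f s n := by
  choose b hb hx using hx
  refine ⟨R73.avg b, fun n => ?_, ?_⟩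
  · simp [R73.avg, hb]
  · rw [map_avg]
    simp only [← hx]

theorem exists_rep (f : ℕ → O) (hf : ∀ n, ‖f n‖ ≤ 1) : ∃ x, Rep q x f :=
  ⟨_, BoundedContinuousFunction.ofNormedAddCommGroupDiscrete f 1 hf, fun _ => rfl, rfl⟩

end rep

theorem emb_comp {ω : Ultrafilter ℕ} {A O : Type} [CStarAlgebra A] [CStarAlgebra O]
    {φ : ℕ → A → O} (h : IsUltrapowerEmbedding ω A O φ) (l : ℕ → (O →⋆ₐ[ℂ] O))
    (hl : ∀ n, Function.Injective (l n)) : IsUltrapowerEmbedding ω A O fun n x => l n (φ n x) := by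
  have e : ∀ n b, ‖l n b‖ = ‖b‖ := fun n b => NonUnitalStarAlgHom.norm_map (l n) (hl n) b
  obtain ⟨h1, h2, h3, h4, h5, h6, h7⟩ := h
  refine ⟨fun a => ?_, fun a b => ?_, fun c a => ?_, fun a b => ?_, fun a => ?_, ?_, fun a => ?_⟩
  · simpa only [e] using h1 a
  · simpa only [← map_add, ← map_sub, e] using h2 a b
  · simpa only [← map_smul, ← map_sub, e] using h3 c a
  · simpa only [← map_mul, ← map_sub, e] using h4 a b
  · simpa only [← map_star, ← map_sub, e] using h5 a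
  · refine h6.congr fun n => ?_
    rw [← e n, map_sub, map_one]
  · simpa only [e] using h7 a

theorem norm_mu_iso {O : Type} [CStarAlgebra O] {X X' : Type} [Fintype X] [Fintype X']
    [DecidableEq X] [DecidableEq X'] {r : X → O} (hr : Cuntz r) {r' : X' → O} (hr' : Cuntz r')
    {M : Matrix X' X ℂ} (hM : Mᴴ * M = 1) : ‖mu r' r M‖ ≤ 1 := by
  have h : star (mu r' r M) * mu r' r M = 1 := by
    rw [mu_star, mu_mul _ hr'.1, hM, mu_one hr]
  have h1 := CStarRing.norm_star_mul_self (x := mu r' r M)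
  rw [h] at h1
  have h2 : ‖(1 : O)‖ ≤ 1 := by
    rcases subsingleton_or_nontrivial O with h | h
    · rw [Subsingleton.elim (1 : O) 0]; simp
    · simp
  nlinarith [norm_nonneg (mu r' r M)]

/-- A sequence of finite-dimensional representations together with Cuntz families. -/
structure Lev (D : Data) (O : Type) [CStarAlgebra O] where
  Y : ℕ → Type
  [fin : ∀ n, Fintype (Y n)]
  [dec : ∀ n, DecidableEq (Y n)]
  [ne : ∀ n, Nonempty (Y n)]
  r : ∀ n, Y n → O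
  hr : ∀ n, Cuntz (r n)
  σ : ∀ n, D.Γ →* Matrix (Y n) (Y n) ℂ
  hσ : ∀ n g, (σ n g)ᴴ = σ n g⁻¹

attribute [instance] Lev.fin Lev.dec Lev.ne

section main
variable {D : Data} {O B A G : Type} [CStarAlgebra O] [CStarAlgebra B] [CStarAlgebra A] [Group G]
  {q : (ℕ →ᵇ O) →⋆ₐ[ℂ] B} {φ : ℕ → A → O}

/-- The two commuting representations in the ultrapower attached to a level sequence. -/
structure Real' (L : Lev D O) (q : (ℕ →ᵇ O) →⋆ₐ[ℂ] B) (φ : ℕ → A → O) where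
  P : A →⋆ₐ[ℂ] B
  Sg : D.Γ →* B
  iso : ∀ x, ‖P x‖ = ‖x‖
  hP : ∀ x, Rep q (P x) fun n => lam (L.r n) (φ n x)
  hS : ∀ γ, Rep q (Sg γ) fun n => mu (L.r n) (L.r n) (L.σ n γ)

theorem exists_real {ω : Ultrafilter ℕ} (hφ : IsUltrapowerEmbedding ω A O φ)
    (hπ : ∀ (φ : ℕ → A → O), IsUltrapowerEmbedding ω A O φ → ∃ π : A →⋆ₐ[ℂ] B,
      (∀ x, ‖π x‖ = ‖x‖) ∧ ∀ x, ∃ b : ℕ →ᵇ O, (∀ n, b n = φ n x) ∧ π x = q b)
    (L : Lev D O) : Nonempty (Real' L q φ) := by
  obtain ⟨P, h1, h2⟩ := hπ _ (emb_comp hφ (fun n => lamHom (L.hr n)) fun n => lamHom_inj _)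
  have : ∀ γ, ∃ x, Rep q x fun n => mu (L.r n) (L.r n) (L.σ n γ) := fun γ =>
    exists_rep _ fun n => norm_mu_iso (L.hr n) (L.hr n)
      (by rw [L.hσ, ← map_mul, inv_mul_cancel, map_one])
  choose s hs using this
  refine ⟨⟨P, ⟨⟨s, ?_⟩, fun γ γ' => ?_⟩, h1, h2, hs⟩⟩
  · exact (hs 1).unique Rep.one fun n => by rw [map_one, mu_one (L.hr n)]
  · exact (hs _).unique ((hs γ).mul (hs γ')) fun n => by rw [mu_mul _ (L.hr n).1, map_mul]

theorem Real'.comm {L : Lev D O} (R : Real' L q φ) (x : A) (γ : D.Γ) :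
    R.P x * R.Sg γ = R.Sg γ * R.P x :=
  ((R.hP x).mul (R.hS γ)).unique ((R.hS γ).mul (R.hP x)) fun n =>
    lam_mul_mu (L.hr n).1 (L.hr n).1 _ _

theorem Real'.star_S {L : Lev D O} (R : Real' L q φ) (γ : D.Γ) : star (R.Sg γ) = R.Sg γ⁻¹ :=
  (R.hS γ).star.unique (R.hS _) fun n => by rw [mu_star, L.hσ]

/-- The representation of the ambient group. -/
noncomputable def Real'.pi {L : Lev D O} (R : Real' L q φ) (u : G →* unitary A) : G →* B :=
  (R.P : A →* B).comp ((unitary A).subtype.comp u)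

theorem Real'.pi_apply {L : Lev D O} (R : Real' L q φ) (u : G →* unitary A) (g : G) :
    R.pi u g = R.P ((u g : unitary A) : A) := rfl

theorem Real'.star_pi {L : Lev D O} (R : Real' L q φ) (u : G →* unitary A) (g : G) :
    star (R.pi u g) = R.pi u g⁻¹ := by
  rw [R.pi_apply, R.pi_apply, ← map_star, map_inv, ← Unitary.star_eq_inv, Unitary.coe_star]

theorem link (i : D.Γ →* G) (τ : G) (hτ : ∀ g, τ * i g = i (D.α g) * τ) (u : G →* unitary A)
    {L L' : Lev D O} (R : Real' L q φ) (R' : Real' L' q φ)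
    (ι : ∀ n, Matrix (L'.Y n) (L.Y n) ℂ) (h1 : ∀ n, (ι n)ᴴ * ι n = 1)
    (h2 : ∀ n g, L'.σ n (D.α g) * ι n = ι n * L.σ n g) (κ : D.W → ℂ)
    (h3 : ∀ n w, (ι n)ᴴ * L'.σ n (D.T w) * ι n = κ w • 1) (p : B)
    (hp : ∀ s, R.pi u (i (D.a s)) * R.Sg (D.a s) * p = p)
    (hne : star p * R.pi u τ⁻¹ * (∑ w, κ w • R.pi u (i (D.T w))) * R.pi u τ * p ≠ 0) :
    1 ≤ ‖avg fun s => R'.pi u (i (D.a s)) * R'.Sg (D.a s)‖ := by
  obtain ⟨z, hz⟩ := exists_rep (q := q) (fun n => mu (L'.r n) (L.r n) (ι n))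
    fun n => norm_mu_iso (L.hr n) (L'.hr n) (h1 n)
  refine step D i τ hτ (R.pi u) (R'.pi u) R.Sg R'.Sg (R'.star_pi u) (R.star_pi u)
    (fun g γ => R.comm _ γ) (fun g γ => R'.comm _ γ) z (fun g => ?_) (fun γ => ?_) κ
    (fun w => ?_) p hp hne
  · exact ((R'.hP _).mul hz).unique (hz.mul (R.hP _)) fun n =>
      lam_mul_mu (L'.hr n).1 (L.hr n).1 _ _
  · exact ((R'.hS _).mul hz).unique (hz.mul (R.hS _)) fun n => by
      rw [mu_mul _ (L'.hr n).1, mu_mul _ (L.hr n).1, h2]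
  · exact ((hz.star.mul (R'.hS _)).mul hz).unique (Rep.smul_one _) fun n => by
      rw [mu_star, mu_mul _ (L'.hr n).1, mu_mul _ (L'.hr n).1, h3, mu_smul, mu_one (L.hr n)]

theorem Real'.kaz (hG : GapStmt) (i : D.Γ →* G) (u : G →* unitary A) {L : Lev D O}
    (R : Real' L q φ) : ∃ p : B, IsKaz (avg fun s => R.pi u (i (D.a s)) * R.Sg (D.a s)) p ∧
      ∀ s, R.pi u (i (D.a s)) * R.Sg (D.a s) * p = p := by
  have hmul : ∀ γ γ', R.pi u (i (γ * γ')) * R.Sg (γ * γ')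
      = R.pi u (i γ) * R.Sg γ * (R.pi u (i γ') * R.Sg γ') := by
    intro γ γ'
    rw [map_mul, map_mul, map_mul, mul_assoc, mul_assoc, ← mul_assoc (R.Sg γ), R.pi_apply u (i γ'),
      ← R.comm, mul_assoc]
  have hstar : ∀ γ, star (R.pi u (i γ) * R.Sg γ) = R.pi u (i γ⁻¹) * R.Sg γ⁻¹ := by
    intro γ
    rw [star_mul, R.star_pi, R.star_S, R.pi_apply, ← R.comm, map_inv i, R.pi_apply]
  let U : D.Γ →* unitary B :=
    { toFun := fun γ => ⟨R.pi u (i γ) * R.Sg γ, by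
        rw [Unitary.mem_iff, hstar, ← hmul, ← hmul]
        simp⟩
      map_one' := Subtype.ext (by simp)
      map_mul' := fun γ γ' => Subtype.ext (hmul γ γ') }
  exact hG D.Γ D.a D.heis B U

end main

end Crest.Agent.R73
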