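import Crest.Agent.R73.Defs

/-! Row 73, sub-task GAP: a spectral gap for four pairwise Heisenberg-related copies of `F`. -/

set_option autoImplicit false

namespace Crest.Agent.R73

namespace Gp

variable {B : Type} [CStarAlgebra B]

/-- Average of a family over `F`. -/
noncomputable def E (v : F → B) : B := (11 : ℂ)⁻¹ • ∑ c, v c

/-- A unitary representation of `(F,+)`. -/
structure Rep (v : F → B) : Prop where
  zero : v 0 = 1
  add : ∀ c d, v (c + d) = v c * v d
  st : ∀ c, star (v c) = v (-c)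

lemma rep_of {Γ : Type} [Group Γ] (U : Γ →* unitary B) (z : F → Γ)
    (hz : ∀ c d, z (c + d) = z c * z d) : Rep (fun c => ((U (z c) : unitary B) : B)) := by
  have h0 : z 0 = 1 := by
    have := hz 0 0
    rw [add_zero] at this
    exact (mul_eq_left.mp this.symm)
  refine ⟨by simp [h0], fun c d => by simp [hz], fun c => ?_⟩
  have h1 : z (-c) = (z c)⁻¹ := by
    rw [eq_inv_iff_mul_eq_one, ← hz, neg_add_cancel, h0]
  simp only [h1, map_inv]
  rfl

lemma mul_E {v : F → B} (h : Rep v) (d : F) : v d * E v = E v := by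
  unfold E
  rw [mul_smul_comm, Finset.mul_sum]
  congr 1
  simp only [← h.add]
  exact Equiv.sum_comp (Equiv.addLeft d) v

lemma E_mul {v : F → B} (h : Rep v) (d : F) : E v * v d = E v := by
  unfold E
  rw [smul_mul_assoc, Finset.sum_mul]
  congr 1
  simp only [← h.add]
  exact Equiv.sum_comp (Equiv.addRight d) v

lemma E_const (x : B) : E (fun _ => x) = x := by
  unfold E
  rw [Finset.sum_const, Finset.card_univ, ZMod.card, ← Nat.cast_smul_eq_nsmul ℂ, smul_smul]
  norm_num

lemma mul_E' (x : B) (v : F → B) : x * E v = E (fun c => x * v c) := by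
  unfold E
  rw [mul_smul_comm, Finset.mul_sum]

lemma E_mul' (x : B) (v : F → B) : E v * x = E (fun c => v c * x) := by
  unfold E
  rw [smul_mul_assoc, Finset.sum_mul]

lemma E_idem {v : F → B} (h : Rep v) : E v * E v = E v := by
  rw [E_mul']
  simp only [mul_E h]
  exact E_const _

lemma E_star {v : F → B} (h : Rep v) : star (E v) = E v := by
  unfold E
  rw [star_smul, star_sum]
  congr 1
  · simp
  · simp only [h.st]
    exact Equiv.sum_comp (Equiv.neg F) v

lemma comm_E {x : B} {v : F → B} (h : ∀ c, x * v c = v c * x) : x * E v = E v * x := by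
  rw [mul_E', E_mul']
  simp only [h]

/-- The algebraic positivity certificate for one pair. -/
lemma pair_alg [PartialOrder B] [StarOrderedRing B] {P Q Z : B} (hP : star P = P)
    (hQ : star Q = Q) (hZ : star Z = Z) (PP : P * P = P) (QQ : Q * Q = Q) (ZZ : Z * Z = Z)
    (ZP : Z * P = P * Z) (ZQ : Z * Q = Q * Z) (h1 : Z * (P * Q) = Z * (Q * P))
    (h2 : (1 - Z) * (11 • (Q * P * Q) - Q) = 0) :
    0 ≤ 430 • (33 • ((1 - P) * (1 - Q) + (1 - Q) * (1 - P)) + 10 • ((1 - P) + (1 - Q))) := by
  have PP' : ∀ x, P * (P * x) = P * x := fun x => by rw [← mul_assoc, PP]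
  have key : ∀ Y A : B, star Y = Y → Y * Y = Y → Y * A = A * Y → 0 ≤ A → 0 ≤ Y * A := by
    intro Y A hY YY YA hA
    have := star_left_conjugate_nonneg hA Y
    rwa [hY, mul_assoc, ← YA, ← mul_assoc, YY] at this
  have proj : ∀ Y : B, star Y = Y → Y * Y = Y → 0 ≤ Y := by
    intro Y hY YY
    have := star_mul_self_nonneg Y
    rwa [hY, YY] at this
  set T : B := 430 • (33 • ((1 - P) * (1 - Q) + (1 - Q) * (1 - P)) + 10 • ((1 - P) + (1 - Q)))
    with hT
  set A : B := 43 • 1 - 33 • (P + Q) with hA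
  set X : B := 10 • P - 33 • (P * Q) with hX
  set M : B := 20 • (star A * A) + 23 • (star X * X) + 23 • Q with hM
  set N : B := 430 • (66 • (star ((1 - P) * (1 - Q)) * ((1 - P) * (1 - Q))) +
    10 • ((1 - P) + (1 - Q))) with hN
  have hP1 : star (1 - P) = 1 - P := by simp [hP]
  have hQ1 : star (1 - Q) = 1 - Q := by simp [hQ]
  have PP1 : (1 - P) * (1 - P) = 1 - P := by simp [mul_sub, sub_mul, PP]
  have QQ1 : (1 - Q) * (1 - Q) = 1 - Q := by simp [mul_sub, sub_mul, QQ]
  have hM0 : 0 ≤ M := by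
    refine add_nonneg (add_nonneg ?_ ?_) ?_
    · exact nsmul_nonneg (star_mul_self_nonneg _) _
    · exact nsmul_nonneg (star_mul_self_nonneg _) _
    · exact nsmul_nonneg (proj Q hQ QQ) _
  have hN0 : 0 ≤ N := by
    refine nsmul_nonneg (add_nonneg ?_ ?_) _
    · exact nsmul_nonneg (star_mul_self_nonneg _) _
    · exact nsmul_nonneg (add_nonneg (proj _ hP1 PP1) (proj _ hQ1 QQ1)) _
  have cP : Commute Z P := ZP
  have cQ : Commute Z Q := ZQ
  have c1 : Commute Z (1 : B) := Commute.one_right Z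
  have sA : star A = A := by
    simp only [hA, star_sub, star_nsmul, star_add, star_one, hP, hQ]
  have sX : star X = 10 • P - 33 • (Q * P) := by
    simp only [hX, star_sub, star_nsmul, star_mul, hP, hQ]
  have cA : Commute Z A := ((c1.smul_right 43).sub_right ((cP.add_right cQ).smul_right 33))
  have cX : Commute Z X := ((cP.smul_right 10).sub_right ((cP.mul_right cQ).smul_right 33))
  have cX' : Commute Z (star X) := by
    rw [sX]; exact ((cP.smul_right 10).sub_right ((cQ.mul_right cP).smul_right 33))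
  have cM : Commute Z M := by
    rw [hM, sA]
    exact (((cA.mul_right cA).smul_right 20).add_right
      ((cX'.mul_right cX).smul_right 23)).add_right (cQ.smul_right 23)
  have cP1 : Commute Z (1 - P) := c1.sub_right cP
  have cQ1 : Commute Z (1 - Q) := c1.sub_right cQ
  have cN : Commute Z N := by
    rw [hN, star_mul, hP1, hQ1]
    exact ((((cQ1.mul_right cP1).mul_right (cP1.mul_right cQ1)).smul_right 66).add_right
      ((cP1.add_right cQ1).smul_right 10)).smul_right 430
  have e1 : T = M - (23 * 99) • (11 • (Q * P * Q) - Q) := by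
    rw [hM, sA, sX, hT, hA, hX]
    simp only [mul_add, add_mul, mul_sub, sub_mul, mul_assoc, PP, QQ, PP', smul_mul_assoc,
      mul_smul_comm, one_mul, mul_one]
    module
  have e2 : Z * T = Z * N := by
    have h3 : Z * (Q * (P * Q)) = Z * (P * Q) := by
      rw [← mul_assoc Q, ← mul_assoc, ← h1, mul_assoc, mul_assoc, QQ]
    rw [hN, star_mul, hP1, hQ1, hT]
    simp only [mul_add, mul_sub, sub_mul, mul_assoc, PP, QQ, PP',
      mul_smul_comm, one_mul, mul_one, h3, ← h1]
    module
  have e3 : (1 - Z) * T = (1 - Z) * M := by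
    rw [e1, mul_sub, mul_smul_comm, h2, smul_zero, sub_zero]
  have e4 : T = (1 - Z) * M + Z * N := by
    rw [← e3, ← e2, sub_mul, one_mul, sub_add_cancel]
  rw [e4]
  refine add_nonneg (key _ _ (by simp [hZ]) (by simp [mul_sub, sub_mul, ZZ]) ?_ hM0)
    (key _ _ hZ ZZ cN hN0)
  exact ((Commute.one_left M).sub_left cM)

/-- The relations for a Heisenberg pair. -/
lemma pair_rel {u v w : F → B} (hu : Rep u) (hv : Rep v) (hw : Rep w)
    (h : ∀ c d, u c * v d = w (c * d) * (v d * u c))
    (wu : ∀ c d, w c * u d = u d * w c) (wv : ∀ c d, w c * v d = v d * w c) :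
    E w * E u = E u * E w ∧ E w * E v = E v * E w ∧
      E w * (E u * E v) = E w * (E v * E u) ∧
      (1 - E w) * (11 • (E v * E u * E v) - E v) = 0 := by
  have Zu : ∀ d, E w * u d = u d * E w := fun d => (comm_E fun c => (wu c d).symm).symm
  have Zv : ∀ d, E w * v d = v d * E w := fun d => (comm_E fun c => (wv c d).symm).symm
  have wQ : ∀ c, w c * E v = E v * w c := fun c => comm_E fun d => wv c d
  refine ⟨comm_E Zu, comm_E Zv, ?_, ?_⟩
  · have h1 : ∀ c d, E w * (u c * v d) = E w * (v d * u c) := fun c d => by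
      rw [h, ← mul_assoc, E_mul hw]
    have h2 : ∀ c, E w * (u c * E v) = E w * (E v * u c) := fun c => by
      rw [mul_E' (u c), E_mul' (u c), mul_E' (E w), mul_E' (E w)]
      simp only [h1]
    rw [E_mul' (E v), mul_E' (E v), mul_E' (E w), mul_E' (E w)]
    simp only [h2]
  · have h1 : ∀ c d, E v * u c * E v = w (c * d) * (E v * u c * E v) := fun c d => by
      calc E v * u c * E v = E v * (u c * v d) * E v := by
            rw [mul_assoc (E v) (u c * v d), mul_assoc (u c), mul_E hv, mul_assoc]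
        _ = (E v * w (c * d)) * v d * u c * E v := by rw [h]; simp only [mul_assoc]
        _ = w (c * d) * (E v * v d) * u c * E v := by rw [← wQ]; simp only [mul_assoc]
        _ = _ := by rw [E_mul hv]; simp only [mul_assoc]
    have h2 : ∀ c, c ≠ 0 → (1 - E w) * (E v * u c * E v) = 0 := fun c hc => by
      have h3 : E w * (E v * u c * E v) = E v * u c * E v := by
        have h4 : E w = E (fun d => w (c * d)) := by
          unfold E
          congr 1
          exact (Equiv.sum_comp (Equiv.mulLeft₀ c hc) w).symm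
        rw [h4, E_mul']
        simp only [← h1]
        exact E_const _
      rw [sub_mul, one_mul, h3, sub_self]
    have h3 : 11 • (E v * E u * E v) = ∑ c, E v * u c * E v := by
      rw [mul_E' (E v), E_mul' (E v)]
      unfold E
      rw [← Nat.cast_smul_eq_nsmul ℂ, smul_smul]
      norm_num
    rw [h3, mul_sub, Finset.mul_sum, Finset.sum_eq_single 0 (fun c _ hc => h2 c hc) (by simp),
      hu.zero, mul_one, E_idem hv, sub_self]

lemma spec {D : B} [PartialOrder B] [StarOrderedRing B] (hD : IsSelfAdjoint D) (h0 : 0 ≤ D)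
    (h4 : 0 ≤ 4 • (1 : B) - D) (hq : 0 ≤ 430 • (33 • (D * D) - 3 • D)) :
    ∃ p : B, star p = p ∧ p * p = p ∧ D * p = 0 ∧ p * D = 0 ∧
      ‖(1 - (4 : ℂ)⁻¹ • D) - p‖ ≤ 49 / 50 := by
  have s0 : ∀ x ∈ spectrum ℝ D, 0 ≤ x := fun x hx => spectrum_nonneg_of_nonneg h0 hx
  have s4 : ∀ x ∈ spectrum ℝ D, x ≤ 4 := by
    have e : cfc (fun x : ℝ => 4 - x) D = 4 • (1 : B) - D := by
      rw [cfc_sub _ _ D, cfc_id' ℝ D, cfc_const _ D]
      congr 1
      rw [Algebra.algebraMap_eq_smul_one, ← Nat.cast_smul_eq_nsmul ℝ]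
      norm_num
    rw [← e, cfc_nonneg_iff _ D] at h4
    intro x hx
    linarith [h4 x hx]
  have sq : ∀ x ∈ spectrum ℝ D, x = 0 ∨ 1 / 11 ≤ x := by
    have e : cfc (fun x : ℝ => (430 * 33 : ℝ) • (x * x) - (430 * 3 : ℝ) • x) D =
        430 • (33 • (D * D) - 3 • D) := by
      rw [cfc_sub _ _ D, cfc_smul _ _ D, cfc_smul _ _ D, cfc_mul _ _ D, cfc_id' ℝ D]
      module
    rw [← e, cfc_nonneg_iff _ D] at hq
    intro x hx
    have h1 := hq x hx
    have h2 := s0 x hx
    simp only [smul_eq_mul] at h1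
    by_contra hcon
    push Not at hcon
    have h3 : 0 < x := lt_of_le_of_ne h2 (Ne.symm hcon.1)
    nlinarith [hcon.2]
  let f : ℝ → ℝ := fun x => max 0 (1 - 11 * x)
  have fc : Continuous f := by fun_prop
  have f0 : f 0 = 1 := by simp [f]
  have f1 : ∀ x, 1 / 11 ≤ x → f x = 0 := fun x hx => max_eq_left (by linarith)
  refine ⟨cfc f D, (cfc_predicate f D).star_eq, ?_, ?_, ?_, ?_⟩
  · rw [← cfc_mul _ _ D]
    refine cfc_congr fun x hx => ?_
    rcases sq x hx with rfl | h
    · simp [f0]
    · simp [f1 x h]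
  · nth_rewrite 1 [← cfc_id' ℝ D]
    rw [← cfc_mul _ _ D, ← cfc_zero ℝ D]
    refine cfc_congr fun x hx => ?_
    rcases sq x hx with rfl | h
    · simp
    · simp [f1 x h]
  · nth_rewrite 2 [← cfc_id' ℝ D]
    rw [← cfc_mul _ _ D, ← cfc_zero ℝ D]
    refine cfc_congr fun x hx => ?_
    rcases sq x hx with rfl | h
    · simp
    · simp [f1 x h]
  · have e : cfc (fun x : ℝ => (1 - (4 : ℝ)⁻¹ • x) - f x) D =
        (1 - (4 : ℂ)⁻¹ • D) - cfc f D := by
      rw [cfc_sub _ _ D, cfc_sub _ _ D, cfc_smul _ _ D, cfc_id' ℝ D, cfc_const_one ℝ D]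
      congr 2
      rw [← Complex.coe_smul]
      norm_num
    rw [← e]
    refine norm_cfc_le (by norm_num) fun x hx => ?_
    have h1 := s4 x hx
    rcases sq x hx with rfl | h
    · simp [f0]; norm_num
    · rw [f1 x h, Real.norm_eq_abs, abs_le, smul_eq_mul]
      constructor <;> linarith

end Gp

open Gp in
theorem gap : GapStmt := by
  intro Γ _ a ha B _ U
  let _ := CStarAlgebra.spectralOrder B
  have _ := CStarAlgebra.spectralOrderedRing B
  let u : Fin 4 → F → B := fun i c => ((U (a (i, c)) : unitary B) : B)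
  have hu : ∀ i, Rep (u i) := fun i => rep_of U (fun c => a (i, c)) (ha.add i)
  let P : Fin 4 → B := fun i => E (u i)
  have hP : ∀ i, star (P i) = P i := fun i => E_star (hu i)
  have PP : ∀ i, P i * P i = P i := fun i => E_idem (hu i)
  have hP1 : ∀ i, star (1 - P i) = 1 - P i := fun i => by simp [hP]
  have PP1 : ∀ i, (1 - P i) * (1 - P i) = 1 - P i := fun i => by simp [mul_sub, sub_mul, PP]
  have proj : ∀ Y : B, star Y = Y → Y * Y = Y → 0 ≤ Y := by
    intro Y hY YY
    have := star_mul_self_nonneg Y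
    rwa [hY, YY] at this
  have pair : ∀ i j, i < j → 0 ≤ 430 • (33 • ((1 - P i) * (1 - P j) + (1 - P j) * (1 - P i)) +
      10 • ((1 - P i) + (1 - P j))) := by
    intro i j hij
    obtain ⟨z, hz, h1, h2, h3⟩ := ha.pair i j hij
    have hw := rep_of U z hz
    obtain ⟨r1, r2, r3, r4⟩ := pair_rel (hu i) (hu j) hw
      (fun c d => by simp only [u]; rw [← Submonoid.coe_mul, ← map_mul, h1]; simp)
      (fun c d => by simp only [u]; rw [← Submonoid.coe_mul, ← map_mul, h2]; simp)
      (fun c d => by simp only [u]; rw [← Submonoid.coe_mul, ← map_mul, h3]; simp)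
    exact pair_alg (hP i) (hP j) (E_star hw) (PP i) (PP j) (E_idem hw) r1 r2 r3 r4
  let R : Fin 4 → B := fun i => 1 - P i
  have RR : ∀ i, R i * R i = R i := PP1
  have hR : ∀ i, star (R i) = R i := hP1
  have R0 : ∀ i, 0 ≤ R i := fun i => proj _ (hR i) (RR i)
  have P0 : ∀ i, 0 ≤ P i := fun i => proj _ (hP i) (PP i)
  let D : B := R 0 + R 1 + R 2 + R 3
  have hD : IsSelfAdjoint D := by
    change star D = D
    simp only [D, star_add, hR]
  have h0 : 0 ≤ D := add_nonneg (add_nonneg (add_nonneg (R0 0) (R0 1)) (R0 2)) (R0 3)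
  have h4 : 0 ≤ 4 • (1 : B) - D := by
    have e : 4 • (1 : B) - D = P 0 + P 1 + P 2 + P 3 := by simp only [D, R]; module
    rw [e]
    exact add_nonneg (add_nonneg (add_nonneg (P0 0) (P0 1)) (P0 2)) (P0 3)
  have hq : 0 ≤ 430 • (33 • (D * D) - 3 • D) := by
    have pr : ∀ i j, i < j → 0 ≤ 430 • (33 • (R i * R j + R j * R i) + 10 • (R i + R j)) := pair
    have := add_nonneg (add_nonneg (add_nonneg (add_nonneg (add_nonneg (pr 0 1 (by decide))
      (pr 0 2 (by decide))) (pr 0 3 (by decide))) (pr 1 2 (by decide))) (pr 1 3 (by decide)))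
      (pr 2 3 (by decide))
    convert this using 1
    simp only [D, mul_add, add_mul, RR]
    module
  obtain ⟨p, sp, pp, Dp, pD, hn⟩ := spec hD h0 h4 hq
  have hh : (avg fun s => ((U (a s) : unitary B) : B)) = 1 - (4 : ℂ)⁻¹ • D := by
    unfold avg
    rw [Fintype.sum_prod_type, Fin.sum_univ_four]
    simp only [D, R, P, E, u]
    module
  have Rp : ∀ i, R i * p = 0 := by
    have e : ∑ i, star (R i * p) * (R i * p) = 0 := by
      have : ∀ i, star (R i * p) * (R i * p) = p * R i * p := fun i => by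
        rw [star_mul, sp, hR, mul_assoc, ← mul_assoc (R i), RR, mul_assoc]
      simp only [this]
      rw [← Finset.sum_mul, ← Finset.mul_sum, Fin.sum_univ_four]
      change p * D * p = 0
      rw [pD, zero_mul]
    rw [Finset.sum_eq_zero_iff_of_nonneg (fun i _ => star_mul_self_nonneg _)] at e
    intro i
    exact (CStarRing.star_mul_self_eq_zero_iff _).mp (e i (Finset.mem_univ _))
  refine ⟨p, ⟨sp, pp, ?_, ?_, by rw [hh]; exact hn⟩, ?_⟩
  · rw [hh, sub_mul, one_mul, smul_mul_assoc, Dp, smul_zero, sub_zero]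
  · rw [hh, mul_sub, mul_one, mul_smul_comm, pD, smul_zero, sub_zero]
  · rintro ⟨i, c⟩
    have h1 : P i * p = p := by
      have := Rp i
      simp only [R, sub_mul, one_mul] at this
      exact (sub_eq_zero.mp this).symm
    change u i c * p = p
    rw [← h1, ← mul_assoc, mul_E (hu i)]

end Crest.Agent.R73
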