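import Crest.Agent.R73.Defs

/-! Row 73, task HAAG: Haagerup's Cauchy–Schwarz inequality with a rank bound. -/

set_option autoImplicit false
set_option linter.unusedSectionVars false
open scoped Matrix Kronecker
open Finset Matrix

namespace Crest.Agent.R73

namespace HA

variable {X Y Z : Type} [Fintype X] [Fintype Y] [Fintype Z]

lemma hs_nonneg (A : Matrix X Y ℂ) : 0 ≤ hs A := by unfold hs; positivity

lemma hs_eq (A : Matrix X Y ℂ) : (Aᴴ * A).trace = (hs A : ℂ) := by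
  simp only [hs, trace, diag_apply, mul_apply, conjTranspose_apply]
  rw [sum_comm]
  push_cast
  simp only [Complex.star_def, Complex.conj_mul']

lemma hs_H (A : Matrix X Y ℂ) : hs Aᴴ = hs A := by
  simp only [hs, conjTranspose_apply, norm_star]
  exact sum_comm

lemma hs_T (A : Matrix X Y ℂ) : hs Aᵀ = hs A := sum_comm

lemma hs_eq' (A : Matrix X Y ℂ) : (A * Aᴴ).trace = (hs A : ℂ) := by
  rw [trace_mul_comm, hs_eq]

lemma cs (A B : Matrix X Y ℂ) : ‖(Aᴴ * B).trace‖ ≤ √(hs A) * √(hs B) := by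
  simp only [hs, trace, diag_apply, mul_apply, conjTranspose_apply]
  rw [sum_comm, ← Fintype.sum_prod_type', ← Fintype.sum_prod_type', ← Fintype.sum_prod_type']
  refine (norm_sum_le _ _).trans ?_
  simp only [norm_mul, norm_star]
  exact Real.sum_mul_le_sqrt_mul_sqrt _ _ _

lemma hs_mul_le {y : Matrix X X ℂ} (hy : ∀ ξ, nsq (y *ᵥ ξ) ≤ nsq ξ) (C : Matrix X Y ℂ) :
    hs (y * C) ≤ hs C := by
  rw [← hs_T, ← hs_T C]
  exact sum_le_sum fun j _ => hy fun i => C i j

lemma factor [DecidableEq X] (T : Matrix X Y ℂ) :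
    ∃ (R : Matrix X X ℂ) (V : Matrix X Y ℂ), T = R * V ∧ Rᴴ * R = V * Vᴴ := by
  have hH := isHermitian_mul_conjTranspose_self T
  have h1 := hH.conjStarAlgAut_star_eigenvectorUnitary
  set U : Matrix X X ℂ := hH.eigenvectorUnitary.1
  have u1 : Uᴴ * U = 1 := hH.eigenvectorUnitary.2.1
  have u2 : U * Uᴴ = 1 := hH.eigenvectorUnitary.2.2
  have h2 : (Uᴴ * T) * (Uᴴ * T)ᴴ = diagonal fun i => (hH.eigenvalues i : ℂ) := by
    refine Eq.trans ?_ h1
    simp [U, Matrix.mul_assoc, star_eq_conjTranspose]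
  have h3 : ∀ i, hH.eigenvalues i = ∑ a, ‖(Uᴴ * T) i a‖ ^ 2 := fun i => by
    have := congrFun₂ h2 i i
    rw [diagonal_apply_eq, mul_apply] at this
    simp only [conjTranspose_apply _ i, Complex.star_def, Complex.mul_conj'] at this
    exact_mod_cast this.symm
  have h4 : ∀ i, 0 ≤ hH.eigenvalues i := fun i => by rw [h3]; positivity
  have h5 : ∀ i, (hH.eigenvalues i : ℂ) = (√√(hH.eigenvalues i) : ℝ) ^ 4 := fun i => by
    rw [← Complex.ofReal_pow, show 4 = 2 * 2 from rfl, pow_mul, Real.sq_sqrt (Real.sqrt_nonneg _),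
      Real.sq_sqrt (h4 i)]
  refine ⟨U * diagonal fun i => ((√√(hH.eigenvalues i) : ℝ) : ℂ),
    (diagonal fun i => ((√√(hH.eigenvalues i) : ℝ) : ℂ)⁻¹) * (Uᴴ * T), ?_, ?_⟩
  · rw [Matrix.mul_assoc, ← Matrix.mul_assoc (diagonal _), diagonal_mul_diagonal]
    conv_lhs => rw [← Matrix.one_mul T, ← u2, Matrix.mul_assoc]
    congr 1
    ext i a
    rw [diagonal_mul]
    by_cases h : ((√√(hH.eigenvalues i) : ℝ) : ℂ) = 0
    · have := h5 i
      rw [h, zero_pow four_ne_zero, Complex.ofReal_eq_zero, h3,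
        sum_eq_zero_iff_of_nonneg fun _ _ => by positivity] at this
      rw [norm_eq_zero.1 (pow_eq_zero_iff two_ne_zero |>.1 (this a (mem_univ _))), mul_zero]
    · rw [mul_inv_cancel₀ h, one_mul]
  · rw [conjTranspose_mul, conjTranspose_mul (diagonal _), Matrix.mul_assoc, Matrix.mul_assoc,
      ← Matrix.mul_assoc Uᴴ, u1, ← Matrix.mul_assoc (Uᴴ * T), h2]
    simp only [Matrix.one_mul, diagonal_conjTranspose, diagonal_mul_diagonal]
    congr 1
    ext i
    simp only [Pi.star_apply, star_inv₀, Complex.star_def, Complex.conj_ofReal, h5]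
    by_cases h : ((√√(hH.eigenvalues i) : ℝ) : ℂ) = 0
    · simp only [h, mul_zero, _root_.inv_zero]
    · field_simp

lemma factor' [DecidableEq X] [DecidableEq Y] (T : Matrix X Y ℂ) :
    ∃ (R : Matrix X X ℂ) (V : Matrix X Y ℂ), T = R * V ∧ hs (R * Rᴴ) = hs T ∧
      hs (Vᴴ * V) = hs T ∧ hs R ≤ √(Fintype.card Y) * √(hs T) := by
  obtain ⟨R, V, rfl, h⟩ := factor T
  have h1 : hs (R * Rᴴ) = hs (R * V) := by
    apply Complex.ofReal_injective
    rw [← hs_eq', ← hs_eq', conjTranspose_mul, conjTranspose_mul, conjTranspose_conjTranspose,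
      Matrix.mul_assoc, Matrix.mul_assoc, ← Matrix.mul_assoc V, ← h, Matrix.mul_assoc]
  have h2 : hs (Vᴴ * V) = hs (R * V) := by
    apply Complex.ofReal_injective
    rw [← hs_eq, ← hs_eq, conjTranspose_mul, conjTranspose_mul, conjTranspose_conjTranspose,
      Matrix.mul_assoc, Matrix.mul_assoc, ← Matrix.mul_assoc Rᴴ, h, Matrix.mul_assoc]
  refine ⟨R, V, rfl, h1, h2, ?_⟩
  have := cs 1 (Vᴴ * V)
  rw [conjTranspose_one, Matrix.one_mul, trace_mul_comm, ← h, hs_eq, h2, Complex.norm_real,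
    Real.norm_of_nonneg (hs_nonneg _)] at this
  convert this
  simp [hs, one_apply, apply_ite]

end HA

open HA in
theorem haag : HaagStmt := by
  intro I X _ _ _ _ y σ θ δ hθ hδ hy hσ ξ
  set ξ' := avg (fun s => y s ⊗ₖ σ s) *ᵥ ξ with hξ'
  obtain ⟨R, V, hT, h1, h2, -⟩ := factor' (Matrix.of fun x a => ξ (a, x))
  obtain ⟨R', V', hT', h1', h2', h3'⟩ := factor' (Matrix.of fun x a => ξ' (a, x))
  have n : ∀ η : I × X → ℂ, hs (Matrix.of fun x a => η (a, x)) = nsq η := fun η => by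
    rw [nsq, Fintype.sum_prod_type, sum_comm]; rfl
  have n0 : ∀ η : I × X → ℂ, 0 ≤ nsq η := fun η => n η ▸ hs_nonneg _
  rw [n] at h1 h2 h1' h2' h3'
  have e1 : (Matrix.of fun x a => ξ' (a, x)) =
      (44 : ℂ)⁻¹ • ∑ s, σ s * (Matrix.of fun x a => ξ (a, x)) * (y s)ᵀ := by
    ext x a
    simp only [hξ', avg, smul_mulVec, sum_mulVec, of_apply, Pi.smul_apply, Finset.sum_apply,
      Matrix.smul_apply, Matrix.sum_apply]
    simp only [mulVec, dotProduct, Fintype.sum_prod_type, mul_apply, kroneckerMap_apply, of_apply,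
      transpose_apply, sum_mul]
    simp only [mul_comm, mul_left_comm]
  have e2 : (nsq ξ' : ℂ) = (44 : ℂ)⁻¹ * ∑ s, (((σ s * R)ᴴ * R')ᴴ * (V * (y s)ᵀ * V'ᴴ)).trace := by
    rw [← n, ← hs_eq]
    nth_rewrite 2 [e1]
    rw [hT, hT', Matrix.mul_smul, trace_smul, Matrix.mul_sum, trace_sum, smul_eq_mul]
    congr 1
    refine sum_congr rfl fun s _ => ?_
    simp only [conjTranspose_mul, conjTranspose_conjTranspose, Matrix.mul_assoc]
    rw [trace_mul_comm V'ᴴ]
    simp only [Matrix.mul_assoc]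
  have b1 : ∀ s, hs (V * (y s)ᵀ * V'ᴴ) ≤ √(nsq ξ') * √(nsq ξ) := fun s => by
    have := cs (V'ᴴ * V') ((y s * (y s * (Vᴴ * V)ᵀ)ᴴ)ᴴᵀ)
    have e : ((V'ᴴ * V')ᴴ * (y s * (y s * (Vᴴ * V)ᵀ)ᴴ)ᴴᵀ).trace = hs (V * (y s)ᵀ * V'ᴴ) := by
      rw [← hs_eq]
      simp only [conjTranspose_mul, conjTranspose_conjTranspose, Matrix.mul_assoc, transpose_mul,
        transpose_transpose]
      rw [trace_mul_comm V'ᴴ]
      simp only [Matrix.mul_assoc]
      rfl
    rw [e, h2', hs_T, hs_H, Complex.norm_real, Real.norm_of_nonneg (hs_nonneg _)] at this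
    refine this.trans (mul_le_mul_of_nonneg_left (Real.sqrt_le_sqrt ?_) (Real.sqrt_nonneg _))
    refine (hs_mul_le (hy s) _).trans ?_
    rw [hs_H]
    exact (hs_mul_le (hy s) _).trans (by rw [hs_T, h2])
  have b2 : (44 : ℝ)⁻¹ * ∑ s, hs ((σ s * R)ᴴ * R') ≤
      (θ + δ * √(Fintype.card I)) * (√(nsq ξ') * √(nsq ξ)) := by
    obtain ⟨c, c1, c2, c3⟩ := hσ (R * Rᴴ)
    have e : (((44 : ℝ)⁻¹ * ∑ s, hs ((σ s * R)ᴴ * R') : ℝ) : ℂ) =
        ((R' * R'ᴴ)ᴴ * (avg (fun s => σ s * (R * Rᴴ) * (σ s)ᴴ) - c)).trace +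
          (R' * R'ᴴ * c).trace := by
      rw [conjTranspose_mul, conjTranspose_conjTranspose, ← trace_add, ← Matrix.mul_add,
        sub_add_cancel, avg, Matrix.mul_smul, trace_smul, Matrix.mul_sum, trace_sum, smul_eq_mul]
      push_cast
      congr 1
      refine sum_congr rfl fun s _ => ?_
      rw [← hs_eq]
      simp only [conjTranspose_mul, conjTranspose_conjTranspose, Matrix.mul_assoc]
      rw [trace_mul_comm R']
      simp only [Matrix.mul_assoc]
    have a1 := cs (R' * R'ᴴ) (avg (fun s => σ s * (R * Rᴴ) * (σ s)ᴴ) - c)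
    have a2 := Real.sqrt_le_sqrt c3
    rw [h1] at c2
    rw [h1, Real.sqrt_mul (sq_nonneg _), Real.sqrt_sq hθ] at a2
    rw [h1'] at a1
    have a3 : ‖(R' * R'ᴴ * c).trace‖ ≤ δ * √(nsq ξ) * hs R' := by
      rw [hs, mul_sum]
      refine norm_sum_le_of_le _ fun x _ => ?_
      rw [diag_apply, mul_apply, sum_eq_single x (fun z _ hz => by rw [c1 z x hz, mul_zero])
        (by simp), norm_mul, mul_comm, mul_apply]
      refine mul_le_mul ?_ (norm_sum_le_of_le _ fun z _ => by simp [sq]) (norm_nonneg _)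
        (by positivity)
      refine (Real.le_sqrt_of_sq_le (c2 x)).trans_eq ?_
      rw [Real.sqrt_mul (sq_nonneg _), Real.sqrt_sq hδ]
    have a4 := (Complex.re_le_norm _).trans (e ▸ norm_add_le_of_le (a1.trans
      (mul_le_mul_of_nonneg_left a2 (Real.sqrt_nonneg _))) (a3.trans
      (mul_le_mul_of_nonneg_left h3' (by positivity))))
    rw [Complex.ofReal_re] at a4
    linarith
  have b3 : nsq ξ' ≤ √(θ + δ * √(Fintype.card I)) * (√(nsq ξ') * √(nsq ξ)) := by
    set m := √(nsq ξ') * √(nsq ξ)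
    have m0 : 0 ≤ m := by positivity
    have := congrArg norm e2
    rw [Complex.norm_real, Real.norm_of_nonneg (n0 _), norm_mul] at this
    have a1 := Real.sum_sqrt_mul_sqrt_le univ (f := fun s => hs ((σ s * R)ᴴ * R')) (g := fun _ => m)
      (fun _ => hs_nonneg _) fun _ => m0
    have a2 := (norm_sum_le_of_le univ fun s _ => (cs _ _).trans (mul_le_mul_of_nonneg_left
      (Real.sqrt_le_sqrt (b1 s)) (Real.sqrt_nonneg (hs ((σ s * R)ᴴ * R'))))).trans a1
    have a3 : √(∑ s, hs ((σ s * R)ᴴ * R')) * √(∑ _s : S, m) ≤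
        44 * (√(θ + δ * √(Fintype.card I)) * m) := by
      rw [← Real.sqrt_mul (sum_nonneg fun _ _ => hs_nonneg _)]
      refine Real.sqrt_le_iff.2 ⟨by positivity, ?_⟩
      rw [mul_pow, mul_pow, Real.sq_sqrt (by positivity)]
      simp only [sum_const, card_univ, Fintype.card_prod, Fintype.card_fin, ZMod.card, nsmul_eq_mul]
      push_cast
      nlinarith [mul_le_mul_of_nonneg_right b2 m0]
    rw [this, norm_inv, Complex.norm_ofNat]
    linarith
  have a1 := Real.sq_sqrt (n0 ξ')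
  have a2 := Real.sq_sqrt (n0 ξ)
  have a3 := Real.sq_sqrt (show 0 ≤ θ + δ * √(Fintype.card I) by positivity)
  rw [← a3, ← a2]
  nlinarith [sq_nonneg (√(nsq ξ') - √(θ + δ * √(Fintype.card I)) * √(nsq ξ))]

end Crest.Agent.R73
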