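import Crest.Agent.R73.Final

/-! Row 73: the main theorem from the sub-tasks. -/

set_option autoImplicit false
set_option linter.unusedSectionVars false
open Filter Topology Crest.AnalysisR.CStarEmbedding
open scoped Matrix BoundedContinuousFunction

namespace Crest.Agent.R73

theorem main (hG : GapStmt) (hD : DataStmt) (hGr : GroupStmt) (hC : CuntzStmt) (hU : UltraStmt)
    (hE : ExactStmt) :
    ∃ (Γ : Type) (_ : Group Γ) (_ : Countable Γ) (A : Type) (_ : CStarAlgebra A)
      (u : Γ →* unitary A), IsFullGroupCStar A u ∧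
      ∃ (O : Type) (_ : CStarAlgebra O) (s₁ s₂ : O), IsCuntzTwo O s₁ s₂ ∧
        ∀ ω : Ultrafilter ℕ, (∀ n : ℕ, (ω : Filter ℕ) ≠ pure n) →
          ¬ ∃ φ : ℕ → A → O, IsUltrapowerEmbedding ω A O φ := by
  classical
  obtain ⟨D⟩ := hD
  obtain ⟨G, _, _, i, τ, hi, hτ⟩ := exists_hnn D
  obtain ⟨A, _, u, hA⟩ := hGr G
  obtain ⟨O, _, s₁, s₂, hO, _⟩ := hC
  refine ⟨G, inferInstance, inferInstance, A, inferInstance, u, hA, O, inferInstance, s₁, s₂, hO,
    fun ω _ ⟨φ, hφ⟩ => ?_⟩
  obtain ⟨B, _, q, hq, hπ⟩ := hU ω O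
  choose r hr using fun j => exists_cuntz hO.1 hO.2.1 hO.2.2.1 (D.X j)
  let N : ℕ → ℕ → ℝ := fun n j => ‖avg fun s => lam (r j) (φ n ((u (i (D.a s)) : unitary A) : A)) *
    mu (r j) (r j) (D.σ j (D.a s))‖
  let L : (ℕ → ℕ) → Lev D O := fun j =>
    { Y := fun n => D.X (j n), r := fun n => r (j n), hr := fun n => hr _
      σ := fun n => D.σ (j n), hσ := fun n => D.σ_star _ }
  have R : ∀ j, Real' (L j) q φ := fun j => (exists_real hφ (hπ A) (L j)).some
  have hlim : ∀ j : ℕ → ℕ, Tendsto (fun n => N n (j n)) (ω : Filter ℕ)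
      (𝓝 ‖avg fun s => (R j).pi u (i (D.a s)) * (R j).Sg (D.a s)‖) := by
    intro j
    obtain ⟨b, hb, e⟩ := Rep.avg (q := q) fun s => ((R j).hP ((u (i (D.a s)) : unitary A) : A)).mul
      ((R j).hS (D.a s))
    have := hq b
    rw [← e] at this
    exact this.congr fun n => by rw [hb]
  -- base
  have hbase : 1 ≤ ‖avg fun s => (R fun _ => 0).pi u (i (D.a s)) * (R fun _ => 0).Sg (D.a s)‖ := by
    have hc : Cuntz fun _ : Unit => (1 : O) := ⟨fun x y => by simp, by simp⟩
    let L₀ : Lev D O :=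
      { Y := fun _ => Unit, r := fun _ _ => 1, hr := fun _ => hc, σ := fun _ => 1
        hσ := fun _ _ => by simp }
    obtain ⟨R₀⟩ := exists_real hφ (hπ A) L₀
    have hS : ∀ γ, R₀.Sg γ = 1 := fun γ => (R₀.hS γ).unique Rep.one fun n => mu_one hc
    obtain ⟨p, hp, hp'⟩ := hG D.Γ D.a D.heis A (u.comp i)
    let κ : D.W → ℂ := fun w => (D.v₀ᴴ * D.σ 0 (D.T w) * D.v₀) () ()
    have hw := witness D i hi τ hτ u hA p hp κ (by simp [κ, D.T₀, D.v₀_iso])
    refine link i τ hτ u R₀ (R fun _ => 0) (fun _ => D.v₀) (fun _ => D.v₀_iso)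
      (fun _ g => (D.v₀_int g).trans (Matrix.mul_one _).symm) κ (fun _ w => ?_) (R₀.P p)
      (fun s => ?_) ?_
    · ext ⟨⟩ ⟨⟩
      exact (mul_one _).symm
    · rw [hS, mul_one, R₀.pi_apply, ← map_mul]
      exact congrArg _ (hp' s)
    · intro h0
      apply hw
      rw [← norm_eq_zero, ← R₀.iso, norm_eq_zero, ← h0]
      simp only [map_mul, map_sum, map_smul, map_star, Real'.pi_apply]
  -- step
  have hstep : ∀ j : ℕ → ℕ,
      49 / 50 < ‖avg fun s => (R j).pi u (i (D.a s)) * (R j).Sg (D.a s)‖ →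
      1 ≤ ‖avg fun s => (R fun n => j n + 1).pi u (i (D.a s)) *
        (R fun n => j n + 1).Sg (D.a s)‖ := by
    intro j hj
    obtain ⟨p, hp, hp'⟩ := (R j).kaz hG i u
    refine link i τ hτ u (R j) (R fun n => j n + 1) (fun n => D.ι (j n)) (fun n => D.ι_iso _)
      (fun n g => D.ι_int _ g) (fun w => if w = D.w₀ then 1 else 0) (fun n w => ?_) p hp' ?_
    · by_cases hw : w = D.w₀
      · subst hw
        have : (D.ι (j n))ᴴ * D.σ (j n + 1) (D.T D.w₀) * D.ι (j n) = 1 := by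
          rw [D.T₀, map_one, Matrix.mul_one, D.ι_iso]
        exact this.trans (by simp)
      · exact (D.ι_orth _ w hw).trans (by simp [hw])
    · have : (∑ w, (if w = D.w₀ then (1 : ℂ) else 0) • (R j).pi u (i (D.T w))) = 1 := by
        simp [ite_smul, D.T₀]
      rw [this, mul_one, mul_assoc (star p), ← map_mul, inv_mul_cancel, map_one, mul_one, hp.sa,
        hp.idem]
      exact hp.ne_zero hj
  -- exactness
  have hsmall : ∀ᶠ n in (ω : Filter ℕ), ∀ s,
      ‖φ n ((u (i (D.a s)) : unitary A) : A)‖ ≤ 1 + 1 / 1000 := by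
    rw [eventually_all]
    intro s
    have h1 := hφ.2.2.2.2.2.2 ((u (i (D.a s)) : unitary A) : A)
    have h2 : ‖((u (i (D.a s)) : unitary A) : A)‖ < 1 + 1 / 1000 := by
      rcases subsingleton_or_nontrivial A with h | h
      · rw [Subsingleton.elim ((u (i (D.a s)) : unitary A) : A) 0]; norm_num
      · rw [CStarRing.norm_coe_unitary]; norm_num
    exact (h1.eventually (gt_mem_nhds h2)).mono fun n hn => hn.le
  have hzero : ∀ᶠ n in (ω : Filter ℕ), 199 / 200 < N n 0 :=
    (hlim fun _ => 0).eventually (lt_mem_nhds (lt_of_lt_of_le (by norm_num) hbase))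
  have hex : ∀ n, ∃ j, (∀ s, ‖φ n ((u (i (D.a s)) : unitary A) : A)‖ ≤ 1 + 1 / 1000) →
      199 / 200 < N n 0 → 199 / 200 < N n j ∧ N n (j + 1) ≤ 199 / 200 := by
    intro n
    by_contra hcon
    push Not at hcon
    obtain ⟨h1, h2, -⟩ := hcon 0
    have hall : ∀ j, 199 / 200 < N n j := by
      intro j
      induction j with
      | zero => exact h2
      | succ j ih => exact (hcon j).2.2 ih
    obtain ⟨j, hj⟩ := (hE D O s₁ s₂ hO r hr _ h1).exists
    exact absurd (hall j) (not_lt.2 hj)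
  choose j hj using hex
  have hgood : ∀ᶠ n in (ω : Filter ℕ), 199 / 200 < N n (j n) ∧ N n (j n + 1) ≤ 199 / 200 := by
    filter_upwards [hsmall, hzero] with n h1 h2 using hj n h1 h2
  have h1 := ge_of_tendsto (hlim j) (hgood.mono fun n hn => hn.1.le)
  have h2 := le_of_tendsto (hlim fun n => j n + 1) (hgood.mono fun n hn => hn.2)
  have h3 := hstep j (by linarith)
  linarith

end Crest.Agent.R73
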