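import Crest.Agent.R73.Defs

/-! Row 73: the calculus of `mu` and `lam`. -/

set_option autoImplicit false
set_option linter.unusedSectionVars false
open scoped Matrix Kronecker

namespace Crest.Agent.R73

section alg
variable {O : Type} [Ring O] [StarRing O] [Algebra ℂ O] [StarModule ℂ O]
variable {X X' X'' : Type} [Fintype X] [Fintype X'] [Fintype X'']

omit [StarModule ℂ O] in
theorem mu_add (r' : X' → O) (r : X → O) (M N : Matrix X' X ℂ) :
    mu r' r (M + N) = mu r' r M + mu r' r N := by
  simp [mu, add_smul, Finset.sum_add_distrib]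

omit [StarModule ℂ O] in
theorem mu_smul (r' : X' → O) (r : X → O) (c : ℂ) (M : Matrix X' X ℂ) :
    mu r' r (c • M) = c • mu r' r M := by
  simp [mu, Finset.smul_sum, mul_smul]

omit [StarModule ℂ O] in
theorem mu_zero (r' : X' → O) (r : X → O) : mu r' r (0 : Matrix X' X ℂ) = 0 := by
  simp [mu]

omit [StarModule ℂ O] in
theorem mu_sum {ι : Type} (s : Finset ι) (r' : X' → O) (r : X → O) (M : ι → Matrix X' X ℂ) :
    mu r' r (∑ i ∈ s, M i) = ∑ i ∈ s, mu r' r (M i) := by
  classical
  induction s using Finset.induction_on with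
  | empty => simp [mu_zero]
  | insert a s ha ih => rw [Finset.sum_insert ha, Finset.sum_insert ha, mu_add, ih]

theorem mu_star (r' : X' → O) (r : X → O) (M : Matrix X' X ℂ) :
    star (mu r' r M) = mu r r' Mᴴ := by
  simp only [mu, star_sum, star_smul, star_mul, star_star, Matrix.conjTranspose_apply]
  rw [Finset.sum_comm]

omit [StarModule ℂ O] in
theorem star_mul_mu [DecidableEq X'] {r' : X' → O} (h : Orth r') (r : X → O)
    (M : Matrix X' X ℂ) (x' : X') : star (r' x') * mu r' r M = ∑ x, M x' x • star (r x) := by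
  simp only [mu, Finset.mul_sum, mul_smul_comm, ← mul_assoc, h x']
  rw [Finset.sum_eq_single x']
  · simp
  · intro b _ hb
    simp [Ne.symm hb]
  · simp

omit [StarModule ℂ O] in
theorem mu_mul [DecidableEq X'] (r'' : X'' → O) {r' : X' → O} (h : Orth r') (r : X → O)
    (M : Matrix X'' X' ℂ) (N : Matrix X' X ℂ) :
    mu r'' r' M * mu r' r N = mu r'' r (M * N) := by
  have : ∀ x'' x', M x'' x' • (r'' x'' * star (r' x')) * mu r' r N
      = ∑ x, (M x'' x' * N x' x) • (r'' x'' * star (r x)) := by
    intro x'' x'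
    rw [smul_mul_assoc, mul_assoc, star_mul_mu h, Finset.mul_sum, Finset.smul_sum]
    simp [mul_smul]
  conv_lhs => rw [mu]
  simp only [Finset.sum_mul, this]
  simp only [mu, Matrix.mul_apply, Finset.sum_smul]
  exact Finset.sum_congr rfl fun _ _ => Finset.sum_comm

omit [StarModule ℂ O] in
theorem mu_one [DecidableEq X] {r : X → O} (h : Cuntz r) : mu r r (1 : Matrix X X ℂ) = 1 := by
  rw [← h.2, mu]
  refine Finset.sum_congr rfl fun x _ => ?_
  simp [Matrix.one_apply, ite_smul]

omit [StarModule ℂ O] in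
theorem lam_mul_mu [DecidableEq X] [DecidableEq X'] {r' : X' → O} (h' : Orth r') {r : X → O}
    (h : Orth r) (b : O) (M : Matrix X' X ℂ) : lam r' b * mu r' r M = mu r' r M * lam r b := by
  have h1 : lam r' b * mu r' r M = ∑ x', ∑ x, M x' x • (r' x' * b * star (r x)) := by
    simp only [lam, Finset.sum_mul, mul_assoc, star_mul_mu h']
    simp [Finset.mul_sum]
  have h2 : ∀ x, star (r x) * lam r b = b * star (r x) := by
    intro x
    simp only [lam, Finset.mul_sum, ← mul_assoc, h x]
    rw [Finset.sum_eq_single x]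
    · simp
    · intro y _ hy
      simp [Ne.symm hy]
    · simp
  rw [h1]
  simp only [mu, Finset.sum_mul, smul_mul_assoc, mul_assoc, h2]

omit [StarModule ℂ O] [Algebra ℂ O] in
theorem star_mul_lam [DecidableEq X] {r : X → O} (h : Orth r) (b : O) (x : X) :
    star (r x) * lam r b = b * star (r x) := by
  simp only [lam, Finset.mul_sum, ← mul_assoc, h x]
  rw [Finset.sum_eq_single x]
  · simp
  · intro y _ hy
    simp [Ne.symm hy]
  · simp

omit [StarModule ℂ O] [Algebra ℂ O] in
theorem lam_mul [DecidableEq X] {r : X → O} (h : Orth r) (b c : O) :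
    lam r (b * c) = lam r b * lam r c := by
  conv_rhs => rw [lam]
  simp only [Finset.sum_mul, mul_assoc, star_mul_lam h]
  simp [lam, mul_assoc]

/-- `lam r` as a unital ⋆-homomorphism. -/
noncomputable def lamHom [DecidableEq X] {r : X → O} (h : Cuntz r) : O →⋆ₐ[ℂ] O where
  toFun := lam r
  map_one' := by simpa [lam] using h.2
  map_mul' := lam_mul h.1
  map_zero' := by simp [lam]
  map_add' b c := by simp [lam, mul_add, add_mul, Finset.sum_add_distrib]
  commutes' c := by
    simp only [lam, Algebra.algebraMap_eq_smul_one, mul_smul_comm, smul_mul_assoc, mul_one,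
      ← Finset.smul_sum, h.2]
  map_star' b := by simp [lam, star_sum, mul_assoc]

theorem lamHom_apply [DecidableEq X] {r : X → O} (h : Cuntz r) (b : O) :
    lamHom h b = lam r b := rfl

theorem lamHom_inj [DecidableEq X] [Nonempty X] {r : X → O} (h : Cuntz r) :
    Function.Injective (lamHom h) := by
  intro b c hbc
  obtain ⟨x⟩ := ‹Nonempty X›
  have : star (r x) * lam r b * r x = star (r x) * lam r c * r x := by
    rw [← lamHom_apply h, ← lamHom_apply h, hbc]
  simpa [star_mul_lam h.1, mul_assoc, h.1 x x] using this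

/-- `mu t t` as a non-unital ⋆-homomorphism. -/
noncomputable def muHom [DecidableEq X] {t : X → O} (h : Orth t) : Matrix X X ℂ →⋆ₙₐ[ℂ] O where
  toFun := mu t t
  map_smul' c M := mu_smul t t c M
  map_zero' := mu_zero t t
  map_add' := mu_add t t
  map_mul' M N := (mu_mul t h t M N).symm
  map_star' M := (mu_star t t M).symm

theorem muHom_apply [DecidableEq X] {t : X → O} (h : Orth t) (M : Matrix X X ℂ) :
    muHom h M = mu t t M := rfl

theorem muHom_inj [Nontrivial O] [DecidableEq X] {t : X → O} (h : Orth t) :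
    Function.Injective (muHom h) := by
  intro M N hMN
  ext x y
  have key : ∀ M : Matrix X X ℂ, star (t x) * mu t t M * t y = M x y • (1 : O) := by
    intro M
    rw [star_mul_mu h, Finset.sum_mul, Finset.sum_eq_single y]
    · simp [h y y]
    · intro z _ hz
      simp [h z y, hz]
    · simp
  have : M x y • (1 : O) = N x y • (1 : O) := by
    rw [← key, ← key, ← muHom_apply h, ← muHom_apply h, hMN]
  have h2 : (M x y - N x y) • (1 : O) = 0 := by rw [sub_smul, this, sub_self]
  rcases smul_eq_zero.1 h2 with h3 | h3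
  · exact sub_eq_zero.1 h3
  · exact absurd h3 one_ne_zero

omit [StarModule ℂ O] [Algebra ℂ O] [Fintype X] [Fintype X'] in
theorem Orth.prod [DecidableEq X] [DecidableEq X'] {t : X' → O} (ht : Orth t) {r : X → O}
    (hr : Orth r) : Orth fun p : X' × X => r p.2 * t p.1 := by
  rintro ⟨a, x⟩ ⟨b, y⟩
  simp only [star_mul, Prod.mk.injEq]
  rw [mul_assoc, ← mul_assoc (star (r x)), hr x y]
  by_cases hxy : x = y
  · simp [hxy, ht a b]
  · simp [hxy]

omit [StarModule ℂ O] in
theorem lam_mu_mul_mu [DecidableEq X] {r : X → O} (hr : Orth r) (t : X' → O)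
    (y : Matrix X' X' ℂ) (M : Matrix X X ℂ) :
    lam r (mu t t y) * mu r r M
      = mu (fun p : X' × X => r p.2 * t p.1) (fun p : X' × X => r p.2 * t p.1) (y ⊗ₖ M) := by
  simp only [lam, Finset.sum_mul, mul_assoc, star_mul_mu hr]
  simp only [mu, Fintype.sum_prod_type, Matrix.kroneckerMap_apply, star_mul, Finset.sum_mul,
    Finset.mul_sum, smul_mul_assoc, mul_smul_comm, Finset.smul_sum, smul_smul, mul_assoc]
  conv_rhs => rw [Finset.sum_comm]
  refine Finset.sum_congr rfl fun x _ => ?_
  rw [Finset.sum_comm]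
  refine Finset.sum_congr rfl fun a _ => ?_
  rw [Finset.sum_comm]
  refine Finset.sum_congr rfl fun b _ => Finset.sum_congr rfl fun x' _ => ?_
  rw [mul_comm]

end alg

/-- Cuntz families exist for every nonempty finite index type. -/
theorem exists_cuntz {O : Type} [Ring O] [StarRing O] {s₁ s₂ : O} (h1 : star s₁ * s₁ = 1)
    (h2 : star s₂ * s₂ = 1) (h3 : s₁ * star s₁ + s₂ * star s₂ = 1) (X : Type) [Fintype X]
    [DecidableEq X] [Nonempty X] : ∃ r : X → O, Cuntz r := by
  have h12 : star s₁ * s₂ = 0 := by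
    have : star s₁ * (s₁ * star s₁ + s₂ * star s₂) * s₂ = star s₁ * s₂ := by rw [h3, mul_one]
    rw [mul_add, add_mul, ← mul_assoc, h1, one_mul, mul_assoc, mul_assoc, h2, mul_one] at this
    simpa using this
  have h21 : star s₂ * s₁ = 0 := by simpa using congrArg star h12
  have key : ∀ n : ℕ, ∃ r : Fin (n + 1) → O, Cuntz r := by
    intro n
    induction n with
    | zero =>
      refine ⟨fun _ => 1, fun x y => ?_, by simp⟩
      have : x = y := Fin.ext (by omega)
      simp [this]
    | succ n ih =>
      obtain ⟨r, hr⟩ := ih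
      refine ⟨Fin.cons s₁ fun i => s₂ * r i, fun x y => ?_, ?_⟩
      · refine Fin.cases ?_ (fun x => ?_) x <;> refine Fin.cases ?_ (fun y => ?_) y
        · simp [h1]
        · simp [← mul_assoc, h12, (Fin.succ_ne_zero y).symm]
        · simp [mul_assoc, h21]
        · simp only [Fin.cons_succ, star_mul, Fin.succ_inj]
          rw [mul_assoc, ← mul_assoc (star s₂), h2, one_mul, hr.1]
      · rw [Fin.sum_univ_succ]
        simp only [Fin.cons_zero, Fin.cons_succ, star_mul]
        have : ∑ i, s₂ * r i * (star (r i) * star s₂) = s₂ * (∑ i, r i * star (r i)) * star s₂ := by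
          simp [Finset.mul_sum, Finset.sum_mul, mul_assoc]
        rw [this, hr.2, mul_one, h3]
  obtain ⟨n, hn⟩ : ∃ n, Fintype.card X = n + 1 :=
    ⟨Fintype.card X - 1, by have := Fintype.card_pos (α := X); omega⟩
  obtain ⟨r, hr⟩ := key n
  let e : X ≃ Fin (n + 1) := Fintype.equivFinOfCardEq hn
  refine ⟨fun x => r (e x), fun x y => ?_, ?_⟩
  · simp [hr.1 (e x) (e y)]
  · rw [← hr.2]
    exact Equiv.sum_comp e fun i => r i * star (r i)

end Crest.Agent.R73
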