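import Crest.Agent.R73.Mu

/-! Row 73: the climbing step, in an abstract C⋆-algebra. -/

set_option autoImplicit false
set_option linter.unusedSectionVars false

namespace Crest.Agent.R73

variable {B : Type} [CStarAlgebra B]

theorem avg_mul_fix {u : S → B} {η : B} (h : ∀ s, u s * η = η) : avg u * η = η := by
  simp only [avg, smul_mul_assoc, Finset.sum_mul, h, Finset.sum_const, Finset.card_univ]
  have : Fintype.card S = 44 := by simp [S, ZMod.card]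
  rw [this, ← Nat.cast_smul_eq_nsmul ℂ, smul_smul]
  norm_num

theorem one_le_norm_of_fix {h η : B} (hη : η ≠ 0) (hf : h * η = η) : 1 ≤ ‖h‖ := by
  have h1 : ‖η‖ ≤ ‖h‖ * ‖η‖ := by
    conv_lhs => rw [← hf]
    exact norm_mul_le _ _
  have h2 : 0 < ‖η‖ := norm_pos_iff.2 hη
  by_contra hlt
  push Not at hlt
  nlinarith

theorem IsKaz.ne_zero {h p : B} (hk : IsKaz h p) (hn : 49 / 50 < ‖h‖) : p ≠ 0 := by
  rintro rfl
  have := hk.gap
  simp at this
  linarith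

theorem IsKaz.map {C : Type} [CStarAlgebra C] {h p : B} (hk : IsKaz h p) (f : B →⋆ₐ[ℂ] C) :
    IsKaz (f h) (f p) where
  sa := by rw [← map_star, hk.sa]
  idem := by rw [← map_mul, hk.idem]
  hp := by rw [← map_mul, hk.hp]
  ph := by rw [← map_mul, hk.ph]
  gap := by
    rw [← map_sub]
    exact (NonUnitalStarAlgHom.norm_apply_le f _).trans hk.gap

theorem map_avg {C : Type} [CStarAlgebra C] (f : B →⋆ₐ[ℂ] C) (u : S → B) :
    f (avg u) = avg fun s => f (u s) := by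
  simp [avg, map_sum]

/-- The climbing step. -/
theorem step (D : Data) {G : Type} [Group G] (i : D.Γ →* G) (τ : G)
    (hτ : ∀ g, τ * i g = i (D.α g) * τ) (π₁ π₂ : G →* B) (σ₁ σ₂ : D.Γ →* B)
    (hπ₂ : ∀ g, star (π₂ g) = π₂ g⁻¹) (hπ₁ : ∀ g, star (π₁ g) = π₁ g⁻¹)
    (c₁ : ∀ g γ, π₁ g * σ₁ γ = σ₁ γ * π₁ g) (c₂ : ∀ g γ, π₂ g * σ₂ γ = σ₂ γ * π₂ g)
    (ι : B) (hι : ∀ g, π₂ g * ι = ι * π₁ g) (hσ : ∀ γ, σ₂ (D.α γ) * ι = ι * σ₁ γ)
    (κ : D.W → ℂ) (hκ : ∀ w, star ι * σ₂ (D.T w) * ι = κ w • 1)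
    (p : B) (hp : ∀ s, π₁ (i (D.a s)) * σ₁ (D.a s) * p = p)
    (hne : star p * π₁ τ⁻¹ * (∑ w, κ w • π₁ (i (D.T w))) * π₁ τ * p ≠ 0) :
    1 ≤ ‖avg fun s => π₂ (i (D.a s)) * σ₂ (D.a s)‖ := by
  set U : D.Γ → B := fun γ => π₂ (i γ) * σ₂ γ with hU
  have Umul : ∀ γ γ', U (γ * γ') = U γ * U γ' := by
    intro γ γ'
    simp only [hU, map_mul]
    rw [mul_assoc, mul_assoc, ← mul_assoc (σ₂ γ), ← c₂, mul_assoc]
  set ζ : B := ι * π₁ τ * p with hζ
  have hfix : ∀ s, U (D.α (D.a s)) * ζ = ζ := by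
    intro s
    simp only [hU, hζ]
    calc π₂ (i (D.α (D.a s))) * σ₂ (D.α (D.a s)) * (ι * π₁ τ * p)
        = π₂ (i (D.α (D.a s))) * (σ₂ (D.α (D.a s)) * ι) * π₁ τ * p := by simp only [mul_assoc]
      _ = (π₂ (i (D.α (D.a s))) * ι) * (σ₁ (D.a s) * π₁ τ) * p := by
          rw [hσ]; simp only [mul_assoc]
      _ = ι * (π₁ (i (D.α (D.a s))) * π₁ τ) * σ₁ (D.a s) * p := by
          rw [hι, ← c₁]; simp only [mul_assoc]
      _ = ι * π₁ τ * (π₁ (i (D.a s)) * σ₁ (D.a s) * p) := by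
          rw [← map_mul, ← hτ, map_mul]; simp only [mul_assoc]
      _ = ι * π₁ τ * p := by rw [hp]
  set η : B := ∑ w, U (D.T w) * ζ with hη
  have hinv : ∀ s, U (D.a s) * η = η := by
    intro s
    obtain ⟨e, he⟩ := D.perm s
    rw [hη, Finset.mul_sum, ← Equiv.sum_comp e fun w => U (D.T w) * ζ]
    refine Finset.sum_congr rfl fun w _ => ?_
    obtain ⟨s₁, s₂, h⟩ := he w
    rw [← mul_assoc, ← Umul, h, Umul, Umul, mul_assoc, hfix, mul_assoc, hfix]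
  have hιs : ∀ g, star ι * π₂ g = π₁ g * star ι := by
    intro g
    have := congrArg star (hι g⁻¹)
    simpa [star_mul, hπ₁, hπ₂] using this
  have hne' : η ≠ 0 := by
    intro h0
    apply hne
    have : star ζ * η = star p * π₁ τ⁻¹ * (∑ w, κ w • π₁ (i (D.T w))) * π₁ τ * p := by
      rw [hη, Finset.mul_sum, Finset.mul_sum, Finset.sum_mul, Finset.sum_mul]
      refine Finset.sum_congr rfl fun w _ => ?_
      simp only [hζ, hU, star_mul, hπ₁]
      calc star p * (π₁ τ⁻¹ * star ι) * (π₂ (i (D.T w)) * σ₂ (D.T w) * (ι * π₁ τ * p))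
          = star p * π₁ τ⁻¹ * ((star ι * π₂ (i (D.T w))) * σ₂ (D.T w) * ι) * π₁ τ * p := by
            simp only [mul_assoc]
        _ = star p * π₁ τ⁻¹ * (π₁ (i (D.T w)) * (star ι * σ₂ (D.T w) * ι)) * π₁ τ * p := by
            rw [hιs]; simp only [mul_assoc]
        _ = _ := by rw [hκ]; simp
    rw [← this, h0, mul_zero]
  exact one_le_norm_of_fix hne' (avg_mul_fix hinv)

end Crest.Agent.R73
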