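import Crest.Agent.R73.Defs

/-! Row 73, sub-task ULTRA: the norm ultrapower of a C⋆-algebra. -/

set_option autoImplicit false
open Filter Topology Crest.AnalysisR.CStarEmbedding UniformSpace
open scoped BoundedContinuousFunction

namespace Crest.Agent.R73

namespace Ul

/-- Bounded sequences, to be given the limit seminorm. -/
def Pre (_ : Ultrafilter ℕ) (O : Type) [CStarAlgebra O] : Type := ℕ →ᵇ O

variable {ω : Ultrafilter ℕ} {O : Type} [CStarAlgebra O]

noncomputable instance : Ring (Pre ω O) := inferInstanceAs (Ring (ℕ →ᵇ O))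
noncomputable instance : Algebra ℂ (Pre ω O) := inferInstanceAs (Algebra ℂ (ℕ →ᵇ O))
noncomputable instance : StarRing (Pre ω O) := inferInstanceAs (StarRing (ℕ →ᵇ O))
instance : StarModule ℂ (Pre ω O) := inferInstanceAs (StarModule ℂ (ℕ →ᵇ O))

/-- The limit of the norms along `ω`. -/
noncomputable def nr (ω : Ultrafilter ℕ) (b : ℕ →ᵇ O) : ℝ :=
  limUnder (ω : Filter ℕ) (fun n => ‖b n‖)

lemma tend (ω : Ultrafilter ℕ) (b : ℕ →ᵇ O) :
    Tendsto (fun n => ‖b n‖) (ω : Filter ℕ) (𝓝 (nr ω b)) := by
  obtain ⟨x, -, hx⟩ := (isCompact_Icc (a := (0 : ℝ)) (b := ‖b‖)).ultrafilter_le_nhds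
    (ω.map fun n => ‖b n‖) (by
      rw [Ultrafilter.coe_map, le_principal_iff, mem_map]
      exact Eventually.of_forall fun n => ⟨norm_nonneg _, b.norm_coe_le_norm n⟩)
  exact tendsto_nhds_limUnder ⟨x, hx⟩

lemma nr_eq {b : ℕ →ᵇ O} {x : ℝ} (h : Tendsto (fun n => ‖b n‖) (ω : Filter ℕ) (𝓝 x)) :
    nr ω b = x := tendsto_nhds_unique (tend ω b) h

lemma nr_add (a b : ℕ →ᵇ O) : nr ω (a + b) ≤ nr ω a + nr ω b :=
  le_of_tendsto_of_tendsto' (tend ω _) ((tend ω a).add (tend ω b)) fun _ => norm_add_le _ _

lemma nr_mul (a b : ℕ →ᵇ O) : nr ω (a * b) ≤ nr ω a * nr ω b :=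
  le_of_tendsto_of_tendsto' (tend ω _) ((tend ω a).mul (tend ω b)) fun _ => norm_mul_le _ _

lemma nr_smul (c : ℂ) (a : ℕ →ᵇ O) : nr ω (c • a) ≤ ‖c‖ * nr ω a :=
  le_of_tendsto_of_tendsto' (tend ω _) ((tend ω a).const_mul _) fun n => norm_smul_le c (a n)

lemma nr_star (a : ℕ →ᵇ O) : nr ω (star a) = nr ω a :=
  nr_eq ((tend ω a).congr fun n => by simp)

lemma nr_cstar (a : ℕ →ᵇ O) : nr ω (star a * a) = nr ω a * nr ω a :=
  nr_eq (((tend ω a).mul (tend ω a)).congr fun n => by simp [CStarRing.norm_star_mul_self])

noncomputable instance : SeminormedAddCommGroup (Pre ω O) :=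
  AddGroupSeminorm.toSeminormedAddCommGroup
    { toFun := fun b => nr ω b
      map_zero' := nr_eq (by
        refine tendsto_const_nhds.congr fun n => ?_
        exact (norm_zero (E := O)).symm)
      add_le' := fun a b => nr_add a b
      neg' := fun a => nr_eq ((tend ω a).congr fun n => (norm_neg _).symm) }

lemma norm_def (b : Pre ω O) : ‖b‖ = nr ω b := rfl

noncomputable instance : SeminormedRing (Pre ω O) where
  __ : SeminormedAddCommGroup (Pre ω O) := inferInstance
  __ : Ring (Pre ω O) := inferInstance
  norm_mul_le a b := nr_mul a b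

noncomputable instance : NormedAlgebra ℂ (Pre ω O) where
  __ : Algebra ℂ (Pre ω O) := inferInstance
  norm_smul_le c a := nr_smul c a

instance : NormedStarGroup (Pre ω O) where
  norm_star_le a := (nr_star (ω := ω) a).le

/-- The ultrapower. -/
abbrev UP (ω : Ultrafilter ℕ) (O : Type) [CStarAlgebra O] : Type := Completion (Pre ω O)

lemma uc_star : UniformContinuous (star : Pre ω O → Pre ω O) := star_isometry.uniformContinuous

noncomputable instance : Star (UP ω O) := ⟨Completion.map star⟩

lemma coe_star (a : Pre ω O) : star (a : UP ω O) = ((star a : Pre ω O) : UP ω O) :=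
  Completion.map_coe uc_star a

instance : ContinuousStar (UP ω O) := ⟨Completion.continuous_map⟩

noncomputable instance : StarRing (UP ω O) where
  star_involutive x := by
    induction x using Completion.induction_on with
    | hp => exact isClosed_eq (by fun_prop) (by fun_prop)
    | ih a => rw [coe_star, coe_star, star_star]
  star_mul x y := by
    induction x, y using Completion.induction_on₂ with
    | hp => exact isClosed_eq (by fun_prop) (by fun_prop)
    | ih a b => rw [← Completion.coe_mul, coe_star, coe_star, coe_star, star_mul, Completion.coe_mul]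
  star_add x y := by
    induction x, y using Completion.induction_on₂ with
    | hp => exact isClosed_eq (by fun_prop) (by fun_prop)
    | ih a b => rw [← Completion.coe_add, coe_star, coe_star, coe_star, star_add, Completion.coe_add]

instance : StarModule ℂ (UP ω O) where
  star_smul c x := by
    induction x using Completion.induction_on with
    | hp =>
      exact isClosed_eq (continuous_star.comp (continuous_const_smul c))
        ((continuous_const_smul (star c)).comp continuous_star)
    | ih a => rw [← Completion.coe_smul, coe_star, coe_star, star_smul, Completion.coe_smul]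

instance : CStarRing (UP ω O) where
  norm_mul_self_le x := by
    induction x using Completion.induction_on with
    | hp => exact isClosed_le (by fun_prop) (by fun_prop)
    | ih a =>
      rw [coe_star, ← Completion.coe_mul, Completion.norm_coe, Completion.norm_coe]
      exact (nr_cstar (ω := ω) a).ge

noncomputable instance : NormedAlgebra ℂ (UP ω O) where
  norm_smul_le := norm_smul_le

noncomputable instance : CStarAlgebra (UP ω O) where

/-- The quotient map. -/
noncomputable def q (ω : Ultrafilter ℕ) (O : Type) [CStarAlgebra O] : (ℕ →ᵇ O) →⋆ₐ[ℂ] UP ω O where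
  toFun b := ((show Pre ω O from b : Pre ω O) : UP ω O)
  map_one' := Completion.coe_one (Pre ω O)
  map_mul' a b := Completion.coe_mul (α := Pre ω O) a b
  map_zero' := Completion.coe_zero (α := Pre ω O)
  map_add' a b := Completion.coe_add (α := Pre ω O) a b
  commutes' _ := rfl
  map_star' a := (coe_star (ω := ω) a).symm

lemma norm_q (b : ℕ →ᵇ O) : ‖q ω O b‖ = nr ω b := Completion.norm_coe (E := Pre ω O) b

lemma q_eq {a b : ℕ →ᵇ O} (h : Tendsto (fun n => ‖a n - b n‖) (ω : Filter ℕ) (𝓝 0)) :
    q ω O a = q ω O b := by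
  rw [← sub_eq_zero, ← map_sub, ← norm_eq_zero, norm_q]
  exact nr_eq h

end Ul

open Ul in
theorem ultra : UltraStmt := by
  intro ω O _
  refine ⟨UP ω O, inferInstance, q ω O, fun b => by rw [norm_q]; exact tend ω b, ?_⟩
  intro A _ φ ⟨hb, hadd, hsmul, hmul, hstar, hone, hnorm⟩
  choose C hC using hb
  let L : A → ℕ →ᵇ O := fun x =>
    BoundedContinuousFunction.ofNormedAddCommGroupDiscrete (fun n => φ n x) (C x) (hC x)
  have hL : ∀ x n, L x n = φ n x := fun x n => rfl
  have h_add : ∀ x y, q ω O (L (x + y)) = q ω O (L x) + q ω O (L y) := fun x y => by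
    rw [← map_add]; exact q_eq (hadd x y)
  have h_smul : ∀ (c : ℂ) x, q ω O (L (c • x)) = c • q ω O (L x) := fun c x => by
    rw [← map_smul]; exact q_eq (hsmul c x)
  have h_one : q ω O (L 1) = 1 := by
    rw [← map_one (q ω O)]; exact q_eq hone
  let π : A →⋆ₐ[ℂ] UP ω O :=
    { toFun := fun x => q ω O (L x)
      map_one' := h_one
      map_mul' := fun x y => by rw [← map_mul]; exact q_eq (hmul x y)
      map_zero' := by
        have := h_smul 0 0
        rwa [zero_smul, zero_smul] at this
      map_add' := h_add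
      commutes' := fun c => by
        rw [Algebra.algebraMap_eq_smul_one, h_smul, h_one, Algebra.algebraMap_eq_smul_one]
      map_star' := fun x => by rw [← map_star]; exact q_eq (hstar x) }
  refine ⟨π, fun x => ?_, fun x => ⟨L x, hL x, rfl⟩⟩
  change ‖q ω O (L x)‖ = _
  rw [norm_q]
  exact nr_eq (hnorm x)

end Crest.Agent.R73
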