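import Crest.Agent.R73.Defs

/-! Row 73, task UNIV: universal C⋆-algebras for bounded relations. -/

set_option autoImplicit false
open Crest.AnalysisR.CStarEmbedding
open scoped ENNReal InnerProductSpace

namespace Crest.Agent.R73

namespace Univ

variable {ι : Type}

/-- evaluation of a formal ⋆-polynomial -/
noncomputable def ev {B : Type} [CStarAlgebra B] (t : ι → B) : FreeAlgebra ℂ (ι ⊕ ι) →ₐ[ℂ] B :=
  FreeAlgebra.lift ℂ (Sum.elim t fun i => star (t i))

@[simp] lemma ev_inl {B : Type} [CStarAlgebra B] (t : ι → B) (i : ι) :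
    ev t (FreeAlgebra.ι ℂ (Sum.inl i)) = t i := by simp [ev]

@[simp] lemma ev_inr {B : Type} [CStarAlgebra B] (t : ι → B) (i : ι) :
    ev t (FreeAlgebra.ι ℂ (Sum.inr i)) = star (t i) := by simp [ev]

lemma ev_map {A B : Type} [CStarAlgebra A] [CStarAlgebra B] (φ : A →⋆ₐ[ℂ] B) (t : ι → A)
    (p : FreeAlgebra ℂ (ι ⊕ ι)) : φ (ev t p) = ev (fun i => φ (t i)) p := by
  induction p with
  | grade0 r => simp only [AlgHomClass.commutes]
  | grade1 x => cases x <;> simp [map_star]
  | mul a b ha hb => simp only [map_mul, ha, hb]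
  | add a b ha hb => simp only [map_add, ha, hb]

lemma ev_star (p : FreeAlgebra ℂ (ι ⊕ ι)) : ∃ p', ∀ (B : Type) [CStarAlgebra B] (t : ι → B),
    ev t p' = star (ev t p) := by
  induction p with
  | grade0 r => exact ⟨algebraMap _ _ (star r), fun B _ t => by
      simp only [AlgHomClass.commutes, algebraMap_star_comm]⟩
  | grade1 x => exact ⟨FreeAlgebra.ι ℂ x.swap, fun B _ t => by cases x <;> simp⟩
  | mul a b ha hb =>
    obtain ⟨a', ha⟩ := ha
    obtain ⟨b', hb⟩ := hb
    exact ⟨b' * a', fun B _ t => by simp only [map_mul, ha, hb, star_mul]⟩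
  | add a b ha hb =>
    obtain ⟨a', ha⟩ := ha
    obtain ⟨b', hb⟩ := hb
    exact ⟨a' + b', fun B _ t => by simp only [map_add, ha, hb, star_add]⟩

noncomputable instance {I : Type} {A : I → Type} [∀ i, Nontrivial (A i)]
    [∀ i, CStarAlgebra (A i)] : CStarAlgebra (lp A ∞) where

/-- evaluation at a coordinate -/
noncomputable def proj {I : Type} {A : I → Type} [∀ i, Nontrivial (A i)] [∀ i, CStarAlgebra (A i)]
    (k : I) : lp A ∞ →⋆ₐ[ℂ] A k where
  toFun x := x k
  map_one' := rfl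
  map_mul' _ _ := rfl
  map_zero' := rfl
  map_add' _ _ := rfl
  commutes' r := by simp [Algebra.algebraMap_eq_smul_one]
  map_star' _ := rfl

theorem exists_univ (R : Set (FreeAlgebra ℂ (ι ⊕ ι)))
    (hR : ∀ (B : Type) [CStarAlgebra B] (t : ι → B), (∀ r ∈ R, ev t r = 0) → ∀ i, ‖t i‖ ≤ 1) :
    ∃ (A : Type) (_ : CStarAlgebra A) (s : ι → A), (∀ r ∈ R, ev s r = 0) ∧
      (StarAlgebra.adjoin ℂ (Set.range s)).topologicalClosure = ⊤ ∧
      ∀ (B : Type) [CStarAlgebra B] (t : ι → B), (∀ r ∈ R, ev t r = 0) →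
        ∃ φ : A →⋆ₐ[ℂ] B, ∀ i, φ (s i) = t i := by
  let I := {x : FreeAlgebra ℂ (ι ⊕ ι) × ℝ // 0 ≤ x.2 ∧ ∃ (B : Type) (_ : CStarAlgebra B) (t : ι → B),
    (∀ r ∈ R, ev t r = 0) ∧ x.2 < ‖ev t x.1‖}
  choose B inst t h1 h2 using fun k : I => k.2.2
  have : ∀ k, Nontrivial (B k) := fun k =>
    nontrivial_of_ne _ _ (norm_pos_iff.1 (k.2.1.trans_lt (h2 k)))
  let s₀ : ι → lp B ∞ := fun i => ⟨fun k => t k i, memℓp_infty ⟨1, by
    rintro _ ⟨k, rfl⟩; exact hR _ _ (h1 k) i⟩⟩
  have e : ∀ p k, ev s₀ p k = ev (t k) p := fun p k => ev_map (proj k) s₀ p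
  let A := (StarAlgebra.adjoin ℂ (Set.range s₀)).topologicalClosure
  have : IsClosed (A : Set (lp B ∞)) := StarSubalgebra.isClosed_topologicalClosure _
  let s : ι → A := fun i => ⟨s₀ i, StarSubalgebra.le_topologicalClosure _
    (StarAlgebra.subset_adjoin _ _ ⟨i, rfl⟩)⟩
  have e2 : ∀ p, (ev s p : lp B ∞) = ev s₀ p := ev_map A.subtype s
  have rg : ∀ {C : Type} [CStarAlgebra C] (u : ι → C),
      (StarAlgebra.adjoin ℂ (Set.range u) : Set C) = Set.range (ev u) := fun u => by
    rw [← StarSubalgebra.coe_toSubalgebra, StarAlgebra.adjoin_toSubalgebra, ev, ← AlgHom.coe_range,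
      ← Algebra.adjoin_range_eq_range_freeAlgebra_lift, Set.Sum.elim_range]
    congr 3
    ext x; simp [eq_comm (b := star x), star_eq_iff_star_eq (r := x)]
  have hd : DenseRange (ev s) := Subtype.dense_iff.2 (by
    rw [← Set.range_comp]
    exact (congrArg closure ((rg s₀).trans (congrArg Set.range (funext e2).symm))).le)
  refine ⟨A, inferInstance, s, fun r hr => Subtype.ext ((e2 r).trans (lp.ext (funext fun k =>
    (e r k).trans (h1 k r hr)))), ?_, fun C _ u hu => ?_⟩
  · refine SetLike.coe_injective ?_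
    rw [StarSubalgebra.topologicalClosure_coe, rg]
    exact hd.closure_range
  have hn : ∀ p, ‖(ev u).toLinearMap p‖ ≤ 1 * ‖(ev s).toLinearMap p‖ := fun p => by
    refine le_of_forall_lt_imp_le_of_dense fun r hr => ?_
    rcases lt_or_ge r 0 with h | h
    · exact h.le.trans (by positivity)
    let k : I := ⟨(p, r), h, C, _, u, hu, hr⟩
    rw [one_mul]
    exact (h2 k).le.trans ((e p k ▸ lp.norm_apply_le_norm ENNReal.top_ne_zero _ k).trans_eq
      (congrArg norm (e2 p)).symm)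
  let f := (ev u).toLinearMap.extendOfNorm (ev s).toLinearMap
  have hf : ∀ p, f (ev s p) = ev u p := LinearMap.extendOfNorm_eq hd ⟨1, hn⟩
  refine ⟨{ AlgHom.ofLinearMap f.toLinearMap (by simpa using hf 1) fun x y => ?_ with
    map_star' := fun x => ?_ }, fun i => by simpa using hf (FreeAlgebra.ι ℂ (Sum.inl i))⟩
  · refine hd.induction_on₂ (p := fun x y => f (x * y) = f x * f y)
      (isClosed_eq (by fun_prop) (by fun_prop)) (fun a b => ?_) x y
    rw [← map_mul, hf, hf, hf, map_mul]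
  · refine hd.induction_on (p := fun x => f (star x) = star (f x)) x
      (isClosed_eq (by fun_prop) (by fun_prop)) fun a => ?_
    obtain ⟨a', h⟩ := ev_star a
    rw [← h, hf, hf, h]

lemma norm_le_one {B : Type} [CStarAlgebra B] {x : B} (h : star x * x = 1) : ‖x‖ ≤ 1 := by
  have h1 := CStarRing.norm_star_mul_self (x := x)
  have h2 := CStarRing.norm_star_mul_self (x := (1 : B))
  rw [star_one, one_mul] at h2
  rw [h] at h1
  have h3 : ‖(1 : B)‖ ≤ 1 := by nlinarith
  nlinarith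

lemma exists_shift {H : Type} [NormedAddCommGroup H] [InnerProductSpace ℂ H] [CompleteSpace H]
    (b : HilbertBasis ℕ ℂ H) (f : ℕ → ℕ) (hf : Function.Injective f) : ∃ V : H →L[ℂ] H,
      star V * V = 1 ∧ (∀ n, V (star V (b (f n))) = b (f n)) ∧
        ∀ m, (∀ n, f n ≠ m) → V (star V (b m)) = 0 := by
  let W := (b.orthonormal.comp f hf).orthogonalFamily.linearIsometry.comp b.repr.toLinearIsometry
  have h1 : ∀ n, W.toContinuousLinearMap (b n) = b (f n) := fun n => by
    simp [W, b.repr_self, OrthogonalFamily.linearIsometry_apply_single]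
  have h2 : star W.toContinuousLinearMap * W.toContinuousLinearMap = 1 :=
    (ContinuousLinearMap.norm_map_iff_adjoint_comp_self _).1 W.norm_map
  refine ⟨_, h2, fun n => ?_, fun m hm => ?_⟩
  · rw [← h1, ← mul_apply_eq_comp (star _), h2, one_apply_eq_self]
  · rw [show star W.toContinuousLinearMap (b m) = 0 from b.repr.injective (lp.ext (funext fun n => by
      rw [b.repr_apply_apply, ContinuousLinearMap.star_eq_adjoint,
        ContinuousLinearMap.adjoint_inner_right, h1, b.orthonormal.2 (hm n)]; simp)), map_zero]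

end Univ

open Univ FreeAlgebra in
theorem groupC : GroupStmt := fun G _ => by
  have key : ∀ (B : Type) [CStarAlgebra B] (t : G → B), (∀ r ∈ {r | (∃ g h, r = ι ℂ (Sum.inl (g * h)) -
      ι ℂ (Sum.inl g) * ι ℂ (Sum.inl h)) ∨ r = ι ℂ (Sum.inl 1) - 1 ∨
      ∃ g, r = ι ℂ (Sum.inr g) - ι ℂ (Sum.inl g⁻¹)}, ev t r = 0) ↔
      (∀ g h, t (g * h) = t g * t h) ∧ t 1 = 1 ∧ ∀ g, star (t g) = t g⁻¹ := fun B _ t => by
    simp only [Set.mem_ofPred_eq, or_imp, forall_and, forall_exists_index]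
    refine and_congr ⟨fun h a b => ?_, fun h _ a b e => ?_⟩ (by simp [sub_eq_zero])
    · simpa [sub_eq_zero] using h _ a b rfl
    · simp [e, h]
  obtain ⟨A, _, s, h1, h2, h3⟩ := exists_univ _ fun B _ t h g => by
    obtain ⟨a, b, c⟩ := (key B t).1 h
    exact norm_le_one (by rw [c, ← a, inv_mul_cancel, b])
  obtain ⟨a, b, c⟩ := (key A s).1 h1
  refine ⟨A, _, MonoidHom.mk' (fun g => ⟨s g, by rw [c, ← a, inv_mul_cancel, b],
    by rw [c, ← a, mul_inv_cancel, b]⟩) fun g h => Subtype.ext (a g h), h2, fun B _ w =>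
    h3 B _ ((key B _).2 ⟨by simp, by simp, fun g => ?_⟩)⟩
  rw [map_inv, ← Unitary.star_eq_inv, Unitary.coe_star]

open Univ FreeAlgebra in
theorem cuntz : CuntzStmt := by
  have key : ∀ (B : Type) [CStarAlgebra B] (t : Bool → B), (∀ r ∈ ({
      ι ℂ (Sum.inr true) * ι ℂ (Sum.inl true) - 1, ι ℂ (Sum.inr false) * ι ℂ (Sum.inl false) - 1,
      ι ℂ (Sum.inl true) * ι ℂ (Sum.inr true) + ι ℂ (Sum.inl false) * ι ℂ (Sum.inr false) - 1} :
      Set _), ev t r = 0) ↔ star (t true) * t true = 1 ∧ star (t false) * t false = 1 ∧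
        t true * star (t true) + t false * star (t false) = 1 := fun B _ t => by
    simp [sub_eq_zero]
  obtain ⟨A, _, s, h1, h2, h3⟩ := exists_univ _ fun B _ t h g => by
    obtain ⟨a, b, -⟩ := (key B t).1 h
    cases g; exacts [norm_le_one b, norm_le_one a]
  obtain ⟨a, b, c⟩ := (key A s).1 h1
  have h : IsCuntzTwo A (s true) (s false) := ⟨a, b, c, by
    rwa [show ({s true, s false} : Set A) = Set.range s by ext; simp [or_comm]],
    fun B _ t₁ t₂ a b c => (h3 B (fun i => cond i t₁ t₂) ((key B _).2 ⟨a, b, c⟩)).imp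
      fun φ h => ⟨h true, h false⟩⟩
  refine ⟨A, _, _, _, h, ?_⟩
  let e : HilbertBasis ℕ ℂ (lp (fun _ : ℕ => ℂ) 2) := default
  obtain ⟨V, v1, v2, v3⟩ := exists_shift e (fun n => 2 * n) fun a b h => by simpa using h
  obtain ⟨W, w1, w2, w3⟩ := exists_shift e (fun n => 2 * n + 1) fun a b h => by simpa using h
  obtain ⟨φ, -⟩ := h.2.2.2.2 _ V W v1 w1 (ContinuousLinearMap.ext_on
    (Submodule.dense_iff_topologicalClosure_eq_top.2 e.dense_span) (by
      rintro _ ⟨m, rfl⟩
      obtain ⟨n, rfl | rfl⟩ := m.even_or_odd'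
      · simp [v2, w3 (2 * n) (by omega)]
      · simp [w2, v3 (2 * n + 1) (by omega)]))
  have : Nontrivial (lp (fun _ : ℕ => ℂ) 2) := nontrivial_of_ne _ _ (e.orthonormal.ne_zero 0)
  exact φ.toRingHom.domain_nontrivial

end Crest.Agent.R73
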