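import Crest.Agent.R73.Step
import Crest.Prelude.Def_GroupVNA

/-! Row 73: the ambient group and the nonvanishing of the base projection. -/

set_option autoImplicit false
set_option linter.unusedSectionVars false
open Crest.AnalysisR.CStarEmbedding Crest.OpAlg
open scoped InnerProductSpace

namespace Crest.Agent.R73

theorem exists_hnn (D : Data) : ∃ (G : Type) (_ : Group G) (_ : Countable G) (i : D.Γ →* G)
    (τ : G), Function.Injective i ∧ ∀ g, τ * i g = i (D.α g) * τ := by
  let φ : (⊤ : Subgroup D.Γ) ≃* D.α.range :=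
    Subgroup.topEquiv.trans (MonoidHom.ofInjective D.α_inj)
  refine ⟨HNNExtension D.Γ ⊤ D.α.range φ, inferInstance, ?_, HNNExtension.of, HNNExtension.t,
    HNNExtension.of_injective φ, fun g => ?_⟩
  · have : Countable (Multiplicative ℤ) := inferInstanceAs (Countable ℤ)
    have : Countable (FreeMonoid (D.Γ ⊕ Multiplicative ℤ)) :=
      inferInstanceAs (Countable (List (D.Γ ⊕ Multiplicative ℤ)))
    have : Countable (Monoid.Coprod D.Γ (Multiplicative ℤ)) :=
      Monoid.Coprod.mk_surjective.countable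
    exact Quotient.countable
  · exact HNNExtension.t_mul_of (φ := φ) ⟨g, Subgroup.mem_top g⟩

/-- The permutation representation of a group action. -/
noncomputable def permRep (G Y : Type) [Group G] [MulAction G Y] :
    G →* unitary (ltwo Y →L[ℂ] ltwo Y) :=
  (Unitary.linearIsometryEquiv.symm.toMonoidHom).comp
    { toFun := fun g => ltwoReindex (MulAction.toPerm g⁻¹)
      map_one' := by
        ext ξ y
        simp [ltwoReindex]
      map_mul' := by
        intro g h
        ext ξ y
        simp [ltwoReindex, mul_smul] }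

theorem permRep_apply {G Y : Type} [Group G] [MulAction G Y] (g : G) (ξ : ltwo Y) (y : Y) :
    ((permRep G Y g : unitary _) : ltwo Y →L[ℂ] ltwo Y) ξ y = ξ (g⁻¹ • y) := rfl

theorem permRep_single {G Y : Type} [Group G] [MulAction G Y] [DecidableEq Y] (g : G) (y : Y) :
    ((permRep G Y g : unitary _) : ltwo Y →L[ℂ] ltwo Y) (lp.single 2 y (1 : ℂ))
      = lp.single 2 (g • y) (1 : ℂ) := by
  ext z
  rw [permRep_apply]
  simp only [lp.single_apply, Pi.single_apply, inv_smul_eq_iff]

theorem IsKaz.fix {H : Type} [NormedAddCommGroup H] [InnerProductSpace ℂ H] [CompleteSpace H]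
    {h p : H →L[ℂ] H} (hk : IsKaz h p) {ξ : H} (hξ : h ξ = ξ) : p ξ = ξ := by
  have h1 : (h - p) (ξ - p ξ) = ξ - p ξ := by
    have e1 : h (p ξ) = p ξ := congrArg (fun T : H →L[ℂ] H => T ξ) hk.hp
    have e2 : p (p ξ) = p ξ := congrArg (fun T : H →L[ℂ] H => T ξ) hk.idem
    simp [hξ, e1, e2]
  have h2 : ‖ξ - p ξ‖ ≤ 49 / 50 * ‖ξ - p ξ‖ := by
    conv_lhs => rw [← h1]
    exact ((h - p).le_opNorm _).trans (mul_le_mul_of_nonneg_right hk.gap (norm_nonneg _))
  have h3 : ‖ξ - p ξ‖ = 0 := by nlinarith [norm_nonneg (ξ - p ξ)]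
  exact (sub_eq_zero.1 (norm_eq_zero.1 h3)).symm

theorem witness (D : Data) {G : Type} [Group G] (i : D.Γ →* G) (hi : Function.Injective i)
    (τ : G) (hτ : ∀ g, τ * i g = i (D.α g) * τ) {A : Type} [CStarAlgebra A]
    (u : G →* unitary A) (hA : IsFullGroupCStar A u) (p : A)
    (hp : IsKaz (avg fun s => ((u (i (D.a s)) : unitary A) : A)) p) (κ : D.W → ℂ)
    (hκ : κ D.w₀ = 1) :
    star p * ((u τ⁻¹ : unitary A) : A) * (∑ w, κ w • ((u (i (D.T w)) : unitary A) : A)) *
      ((u τ : unitary A) : A) * p ≠ 0 := by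
  classical
  let Y := G ⧸ i.range
  obtain ⟨f, hf⟩ := hA.2 _ (permRep G Y)
  let y₀ : Y := ((1 : G) : G ⧸ i.range)
  let δ : ltwo Y := lp.single 2 y₀ (1 : ℂ)
  have hy : ∀ g, i g • y₀ = y₀ := by
    intro g
    change ((i g * 1 : G) : G ⧸ i.range) = ((1 : G) : G ⧸ i.range)
    rw [QuotientGroup.eq]
    simp
  have hk := hp.map f
  rw [map_avg] at hk
  have hfix : f p δ = δ := by
    refine hk.fix ?_
    have : ∀ s, f ((u (i (D.a s)) : unitary A) : A) δ = δ := by
      intro s
      rw [hf, permRep_single, hy]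
    simp only [avg, ContinuousLinearMap.smul_apply, ContinuousLinearMap.sum_apply, this,
      Finset.sum_const, Finset.card_univ]
    have : Fintype.card S = 44 := by simp [S, ZMod.card]
    rw [this, ← Nat.cast_smul_eq_nsmul ℂ, smul_smul]
    norm_num
  intro h0
  have h1 := congrArg (fun x => ⟪δ, f x δ⟫_ℂ) h0
  simp only [map_mul, map_star, map_sum, map_smul, hf, map_zero, ContinuousLinearMap.zero_apply,
    inner_zero_right, ContinuousLinearMap.mul_apply, hfix] at h1
  rw [ContinuousLinearMap.star_eq_adjoint, ContinuousLinearMap.adjoint_inner_right, hfix] at h1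
  simp only [δ, ContinuousLinearMap.sum_apply, ContinuousLinearMap.smul_apply, map_sum, map_smul,
    permRep_single, inner_sum, inner_smul_right, lp.inner_single_left, lp.single_apply] at h1
  rw [Finset.sum_eq_single D.w₀] at h1
  · simp [D.T₀, hκ] at h1
  · intro w _ hw
    have : y₀ ≠ τ⁻¹ • i (D.T w) • τ • y₀ := by
      intro h
      have h' : ((1 : G) : G ⧸ i.range) = ((τ⁻¹ * (i (D.T w) * (τ * 1)) : G) : G ⧸ i.range) := h
      rw [QuotientGroup.eq] at h'
      obtain ⟨g, hg⟩ := h'
      apply D.free w hw g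
      apply hi
      have h3 := hτ g
      rw [hg] at h3
      simpa using h3
    simp [Pi.single_apply, this]
  · simp

end Crest.Agent.R73
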